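import Vale.Agent.Lib.P090H22.LipFree

/-!
# P090: the final averaging inequality
-/

open Finset

namespace P090H22

variable {M : Type} [MetricSpace M] {o : M}

/-- Basic bound: moving the base point inside `T (del o x)`. -/
theorem abs_pair_T_sub_le (T : LipFree M o →L[ℝ] LipFree M o) {lam r b : ℝ} (hT : ‖T‖ ≤ lam)
    {x y : M} (hxy : dist x y ≤ r) {f : Lip0 M o} (hf : ‖f‖ ≤ b) :
    |pair (T (del o x)) f - pair (T (del o y)) f| ≤ lam * r * b := by
  have hlam : 0 ≤ lam := (norm_nonneg T).trans hT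
  have hr : 0 ≤ r := dist_nonneg.trans hxy
  have h1 : pair (T (del o x)) f - pair (T (del o y)) f = pair (T (del o x - del o y)) f := by
    rw [map_sub, pair_sub_left]
  rw [h1]
  have h2 : ‖T (del o x - del o y)‖ ≤ lam * r := by
    refine (T.le_opNorm _).trans ?_
    exact mul_le_mul hT ((norm_del_sub_le x y).trans hxy) (norm_nonneg _) hlam
  exact (pairing_le _ _).trans (mul_le_mul h2 hf (norm_nonneg _) (mul_nonneg hlam hr))

/-- Basic bound: `T` almost fixes `del o e`. -/
theorem abs_pair_T_del_sub_le (T : LipFree M o →L[ℝ] LipFree M o) {ε b : ℝ} {e : M}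
    (hTe : ‖T (del o e) - del o e‖ ≤ ε) {f : Lip0 M o} (hf : ‖f‖ ≤ b) :
    |pair (T (del o e)) f - f e| ≤ ε * b := by
  have hε : 0 ≤ ε := (norm_nonneg _).trans hTe
  have h1 : pair (T (del o e)) f - f e = pair (T (del o e) - del o e) f := by
    rw [pair_sub_left, pair_del]
  rw [h1]
  exact (pairing_le _ _).trans (mul_le_mul hTe hf (norm_nonneg _) hε)

/-- The averaging inequality.  Sum `pair (T (del o (x i))) (h i)` over `i`.  Below:
`pair (T (del o (x i))) (h i) ≥ 1 - α * (ε + lam * ρ)`.  Above: decompose `h i`; for the `J` part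
use `∑ i, pair (T (del o (x i))) (J i a) = - ∑ i, pair (T (del o (x (σ a i)))) (J i a)` (reindex by
`σ a`), so that twice the sum is `∑ i, pair (T (del o (x i) - del o (x (σ a i)))) (J i a)`. -/
theorem averaging (T : LipFree M o →L[ℝ] LipFree M o) (lam ε ρ α β γ η : ℝ) (hT : ‖T‖ ≤ lam)
    {ι A : Type*} [Fintype ι] [Nonempty ι] [Fintype A]
    (x e : ι → M) (σ : A → ι → ι) (hσ : ∀ a, Function.Involutive (σ a))
    (h : ι → Lip0 M o) (J : ι → A → Lip0 M o) (res κ : ι → Lip0 M o)
    (hdec : ∀ i, h i = ∑ a, J i a + res i + κ i)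
    (hanti : ∀ i a, J (σ a i) a = - J i a)
    (hσd : ∀ i a, dist (x i) (x (σ a i)) ≤ 1)
    (hxe : ∀ i, dist (x i) (e i) ≤ ρ)
    (hTe : ∀ i, ‖T (del o (e i)) - del o (e i)‖ ≤ ε)
    (hh : ∀ i, ‖h i‖ ≤ α) (hhe : ∀ i, h i (e i) = 1)
    (hJ : ∀ i a, ‖J i a‖ ≤ β) (hres : ∀ i, ‖res i‖ ≤ γ) (hres' : ∀ i, |res i (e i)| ≤ γ)
    (hκ : ∀ i, |pair (T (del o (x i))) (κ i)| ≤ η) :
    1 ≤ α * (ε + lam * ρ) + Fintype.card A * β * lam / 2 + γ * (1 + ε + lam * ρ) + η := by
  -- lower bound at each index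
  have hlow : ∀ i, 1 - α * (ε + lam * ρ) ≤ pair (T (del o (x i))) (h i) := by
    intro i
    have h1 := abs_le.1 (abs_pair_T_sub_le T hT (hxe i) (hh i))
    have h2 := abs_le.1 (abs_pair_T_del_sub_le T (hTe i) (hh i))
    rw [hhe i] at h2
    nlinarith [h1.1, h2.1]
  -- the residual term
  have hr : ∀ i, pair (T (del o (x i))) (res i) ≤ γ * (1 + ε + lam * ρ) := by
    intro i
    have h1 := abs_le.1 (abs_pair_T_sub_le T hT (hxe i) (hres i))
    have h2 := abs_le.1 (abs_pair_T_del_sub_le T (hTe i) (hres i))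
    have h3 := abs_le.1 (hres' i)
    nlinarith [h1.2, h2.2, h3.2]
  -- the flow term
  have hflow : ∀ a, ∑ i, pair (T (del o (x i))) (J i a) ≤ Fintype.card ι * (β * lam / 2) := by
    intro a
    have hre : ∑ i, pair (T (del o (x i))) (J i a) =
        - ∑ i, pair (T (del o (x (σ a i)))) (J i a) := by
      rw [← Finset.sum_neg_distrib]
      rw [← Equiv.sum_comp ((hσ a).toPerm (σ a)) (fun i => pair (T (del o (x i))) (J i a))]
      refine Finset.sum_congr rfl (fun i _ => ?_)
      rw [Function.Involutive.coe_toPerm, hanti i a, pair_neg]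
    have htw : 2 * ∑ i, pair (T (del o (x i))) (J i a) =
        ∑ i, (pair (T (del o (x i))) (J i a) - pair (T (del o (x (σ a i)))) (J i a)) := by
      rw [Finset.sum_sub_distrib]
      linarith
    have hle : ∑ i, (pair (T (del o (x i))) (J i a) - pair (T (del o (x (σ a i)))) (J i a)) ≤
        ∑ _i : ι, lam * 1 * β := by
      refine Finset.sum_le_sum (fun i _ => ?_)
      exact (abs_le.1 (abs_pair_T_sub_le T hT (hσd i a) (hJ i a))).2
    rw [Finset.sum_const, Finset.card_univ, nsmul_eq_mul] at hle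
    nlinarith [hle, htw]
  -- sum everything
  have hsum : ∑ i, pair (T (del o (x i))) (h i) =
      ∑ a, ∑ i, pair (T (del o (x i))) (J i a) + ∑ i, pair (T (del o (x i))) (res i) +
        ∑ i, pair (T (del o (x i))) (κ i) := by
    rw [Finset.sum_comm, ← Finset.sum_add_distrib, ← Finset.sum_add_distrib]
    refine Finset.sum_congr rfl (fun i _ => ?_)
    rw [hdec i, pair_add, pair_add, pair_sum]
  have hL : (Fintype.card ι : ℝ) * (1 - α * (ε + lam * ρ)) ≤
      ∑ i, pair (T (del o (x i))) (h i) := by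
    have := Finset.sum_le_sum (fun i (_ : i ∈ (Finset.univ : Finset ι)) => hlow i)
    rwa [Finset.sum_const, Finset.card_univ, nsmul_eq_mul] at this
  have hF : ∑ a, ∑ i, pair (T (del o (x i))) (J i a) ≤
      (Fintype.card A : ℝ) * (Fintype.card ι * (β * lam / 2)) := by
    have := Finset.sum_le_sum (fun a (_ : a ∈ (Finset.univ : Finset A)) => hflow a)
    rwa [Finset.sum_const, Finset.card_univ, nsmul_eq_mul] at this
  have hR : ∑ i, pair (T (del o (x i))) (res i) ≤
      (Fintype.card ι : ℝ) * (γ * (1 + ε + lam * ρ)) := by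
    have := Finset.sum_le_sum (fun i (_ : i ∈ (Finset.univ : Finset ι)) => hr i)
    rwa [Finset.sum_const, Finset.card_univ, nsmul_eq_mul] at this
  have hK : ∑ i, pair (T (del o (x i))) (κ i) ≤ (Fintype.card ι : ℝ) * η := by
    have := Finset.sum_le_sum (fun i (_ : i ∈ (Finset.univ : Finset ι)) => (abs_le.1 (hκ i)).2)
    rwa [Finset.sum_const, Finset.card_univ, nsmul_eq_mul] at this
  have hcard : (0 : ℝ) < Fintype.card ι := by exact_mod_cast Fintype.card_pos
  have hfin : (Fintype.card ι : ℝ) * 1 ≤ (Fintype.card ι : ℝ) *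
      (α * (ε + lam * ρ) + Fintype.card A * β * lam / 2 + γ * (1 + ε + lam * ρ) + η) := by
    rw [hsum] at hL
    nlinarith [hL, hF, hR, hK]
  exact le_of_mul_le_mul_left hfin hcard

end P090H22
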