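import Mathlib

/-!
# P090: lifting words through partial actions and the radial flow
-/

namespace P090H22

/-- A partial action by involutive partial injections. -/
structure PAct (A Y : Type*) where
  /-- the partial action -/
  act : A → Y → Option Y
  invol : ∀ a y y', act a y = some y' → act a y' = some y

variable {A X Y : Type*} [DecidableEq A] [Fintype A]

/-- Lift of the geodesic: `w = [a₁, …, a_r]` is the word of the geodesic from `x` to `z`;
walk back from `z`. -/
def lift (P : PAct A Y) : List A → Y → Option Y
  | [], z => some z
  | (a :: w), z => (lift P w z).bind (P.act a)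

/-- Cancelling left multiplication of a reduced word by a letter. -/
def lmul (a : A) : List A → List A
  | [] => [a]
  | (b :: t) => if b = a then t else a :: b :: t

/-- The flow out of `y`, seen from a point `z` at relative position `w`. -/
noncomputable def flowF (PX : PAct A X) (PY : PAct A Y) (φ : X → Y → A → ℝ) :
    List A → X → Y → A → ℝ
  | [], y, z, b => φ y z b
  | (a :: w), y, z, b =>
    match lift PY (a :: w) z with
    | some z1 => φ y z1 b
    | none =>
      let inflow : ℝ := match PX.act a y with
        | some y1 => flowF PX PY φ w y1 z a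
        | none => 0
      if b = a then -inflow
      else if (PX.act b y).isSome then
        (1 + inflow) / ((Finset.univ.filter (fun c : A => c ≠ a ∧ (PX.act c y).isSome)).card : ℝ)
      else 0

/-- Hypotheses on the flow `φ`. -/
structure GoodFlow (PX : PAct A X) (PY : PAct A Y) (φ : X → Y → A → ℝ) (K : ℝ) : Prop where
  one_le : 1 ≤ K
  deg : ∀ y, 3 ≤ (Finset.univ.filter (fun c : A => (PX.act c y).isSome)).card
  bound : ∀ y z a, |φ y z a| ≤ K
  zero : ∀ y z a, PX.act a y = none → φ y z a = 0
  sum : ∀ y z, ∑ a, φ y z a = 1
  anti : ∀ y z a y' z', PX.act a y = some y' → PY.act a z = some z' → φ y' z' a = - φ y z a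

variable {PX : PAct A X} {PY : PAct A Y} {φ : X → Y → A → ℝ} {K : ℝ}

/-- The inflow along the first letter. -/
noncomputable def inflow (PX : PAct A X) (PY : PAct A Y) (φ : X → Y → A → ℝ)
    (a : A) (w : List A) (y : X) (z : Y) : ℝ :=
  match PX.act a y with
  | some y1 => flowF PX PY φ w y1 z a
  | none => 0

theorem flowF_cons_some {a : A} {w : List A} {y : X} {z z1 : Y}
    (hl : lift PY (a :: w) z = some z1) (b : A) :
    flowF PX PY φ (a :: w) y z b = φ y z1 b := by
  rw [flowF, hl]

theorem flowF_cons_none {a : A} {w : List A} {y : X} {z : Y}
    (hl : lift PY (a :: w) z = none) (b : A) :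
    flowF PX PY φ (a :: w) y z b =
      if b = a then -inflow PX PY φ a w y z
      else if (PX.act b y).isSome then
        (1 + inflow PX PY φ a w y z) /
          ((Finset.univ.filter (fun c : A => c ≠ a ∧ (PX.act c y).isSome)).card : ℝ)
      else 0 := by
  rw [flowF, hl]
  rfl

theorem card_two (h : GoodFlow PX PY φ K) (a : A) (y : X) :
    (2 : ℝ) ≤ ((Finset.univ.filter (fun c : A => c ≠ a ∧ (PX.act c y).isSome)).card : ℝ) := by
  have h1 := h.deg y
  have h2 : (Finset.univ.filter (fun c : A => (PX.act c y).isSome)).card ≤
      (Finset.univ.filter (fun c : A => c ≠ a ∧ (PX.act c y).isSome)).card + 1 := by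
    have : (Finset.univ.filter (fun c : A => (PX.act c y).isSome)) ⊆
        insert a (Finset.univ.filter (fun c : A => c ≠ a ∧ (PX.act c y).isSome)) := by
      intro c hc
      rw [Finset.mem_filter] at hc
      rw [Finset.mem_insert, Finset.mem_filter]
      by_cases hca : c = a
      · exact Or.inl hca
      · exact Or.inr ⟨hc.1, hca, hc.2⟩
    exact (Finset.card_le_card this).trans (Finset.card_insert_le _ _)
  have h3 : 2 ≤ (Finset.univ.filter (fun c : A => c ≠ a ∧ (PX.act c y).isSome)).card := by omega
  exact_mod_cast h3

theorem flowF_bound (h : GoodFlow PX PY φ K) (w : List A) (y : X) (z : Y) (b : A) :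
    |flowF PX PY φ w y z b| ≤ K := by
  have hK := h.one_le
  induction w generalizing y z b with
  | nil => rw [flowF]; exact h.bound y z b
  | cons a w ih =>
    rcases hl : lift PY (a :: w) z with _ | z1
    · rw [flowF_cons_none hl]
      have ht : |inflow PX PY φ a w y z| ≤ K := by
        unfold inflow
        rcases PX.act a y with _ | y1
        · simp only [abs_zero]; linarith
        · exact ih y1 z a
      split_ifs
      · rw [abs_neg]; exact ht
      · have hc := card_two h a y
        have hc0 : (0 : ℝ) <
            ((Finset.univ.filter (fun c : A => c ≠ a ∧ (PX.act c y).isSome)).card : ℝ) := by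
          linarith
        rw [abs_div, abs_of_pos hc0, div_le_iff₀ hc0]
        have h1 : |1 + inflow PX PY φ a w y z| ≤ 1 + K := by
          refine (abs_add_le _ _).trans ?_
          rw [abs_one]; linarith
        nlinarith
      · simp only [abs_zero]; linarith
    · rw [flowF_cons_some hl]
      exact h.bound y z1 b

theorem flowF_zero (h : GoodFlow PX PY φ K) (w : List A) (y : X) (z : Y) (b : A)
    (hb : PX.act b y = none) : flowF PX PY φ w y z b = 0 := by
  cases w with
  | nil => rw [flowF]; exact h.zero y z b hb
  | cons a w =>
    rcases hl : lift PY (a :: w) z with _ | z1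
    · rw [flowF_cons_none hl]
      by_cases hba : b = a
      · subst hba
        simp [inflow, hb]
      · simp [hba, hb]
    · rw [flowF_cons_some hl]
      exact h.zero y z1 b hb

theorem flowF_sum (h : GoodFlow PX PY φ K) (w : List A) (y : X) (z : Y) :
    ∑ b, flowF PX PY φ w y z b = 1 := by
  cases w with
  | nil => simp only [flowF]; exact h.sum y z
  | cons a w =>
    rcases hl : lift PY (a :: w) z with _ | z1
    · have h1 : ∀ b, flowF PX PY φ (a :: w) y z b =
          (if b = a then -inflow PX PY φ a w y z else 0) +
          (if (b ≠ a ∧ (PX.act b y).isSome) then (1 + inflow PX PY φ a w y z) /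
          ((Finset.univ.filter (fun c : A => c ≠ a ∧ (PX.act c y).isSome)).card : ℝ) else 0) := by
        intro b
        rw [flowF_cons_none hl]
        by_cases hba : b = a
        · simp [hba]
        · by_cases hs : (PX.act b y).isSome
          · simp [hba, hs]
          · simp [hba, hs]
      rw [Finset.sum_congr rfl (fun b _ => h1 b), Finset.sum_add_distrib, Finset.sum_ite_eq',
        ← Finset.sum_filter, Finset.sum_const, nsmul_eq_mul]
      have hc := card_two h a y
      have hc0 : ((Finset.univ.filter (fun c : A => c ≠ a ∧ (PX.act c y).isSome)).card : ℝ) ≠ 0 :=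
        by linarith
      rw [mul_div_cancel₀ _ hc0]
      simp
    · simp only [flowF_cons_some hl]
      exact h.sum y z1

theorem flowF_anti_aux (h : GoodFlow PX PY φ K) (w : List A) (y y' : X)
    (z : Y) (b : A) (hb : PX.act b y = some y') :
    flowF PX PY φ (b :: w) y' z b = - flowF PX PY φ w y z b := by
  have hb' := PX.invol b y y' hb
  have hnone : lift PY (b :: w) z = none →
      flowF PX PY φ (b :: w) y' z b = - flowF PX PY φ w y z b := by
    intro hl
    rw [flowF_cons_none hl]
    simp [inflow, hb']
  rcases hl0 : lift PY w z with _ | z0
  · apply hnone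
    rw [lift, hl0]; rfl
  · rcases hl1 : PY.act b z0 with _ | z1
    · apply hnone
      rw [lift, hl0]; exact hl1
    · have hl : lift PY (b :: w) z = some z1 := by
        rw [lift, hl0]; exact hl1
      rw [flowF_cons_some hl]
      have h2 : flowF PX PY φ w y z b = φ y z0 b := by
        cases w with
        | nil =>
          rw [flowF]
          rw [lift] at hl0
          rw [Option.some.inj hl0]
        | cons a w => exact flowF_cons_some hl0 b
      rw [h2]
      exact h.anti y z0 b y' z1 hb hl1

/-- Antisymmetry.  The case `lmul b w = b :: w` is `flowF_anti_aux`; the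
other case `w = b :: w₁` follows from it with the roles of `y`, `y'` exchanged. -/
theorem flowF_anti (h : GoodFlow PX PY φ K) (w : List A) (_hw : w.IsChain (· ≠ ·)) (y y' : X)
    (z : Y) (b : A) (hb : PX.act b y = some y') :
    flowF PX PY φ (lmul b w) y' z b = - flowF PX PY φ w y z b := by
  cases w with
  | nil => exact flowF_anti_aux h [] y y' z b hb
  | cons a w =>
    by_cases hab : a = b
    · subst hab
      rw [flowF_anti_aux h w y' y z a (PX.invol a y y' hb), neg_neg]
      simp [lmul]
    · simp only [lmul, if_neg hab]
      exact flowF_anti_aux h (a :: w) y y' z b hb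

theorem lift_append (w : List A) (z z' : Y) (b : A) (hb : PY.act b z' = some z) :
    lift PY (w ++ [b]) z' = lift PY w z := by
  induction w with
  | nil => simp [lift, hb]
  | cons a w ih => simp only [List.cons_append, lift, ih]

/-- Invariance under moves of `z` (no reducedness needed). -/
theorem flowF_inv (_h : GoodFlow PX PY φ K) (w : List A) (y : X) (z z' : Y) (b : A)
    (hb : PY.act b z = some z') :
    flowF PX PY φ (w ++ [b]) y z' = flowF PX PY φ w y z := by
  have hb' := PY.invol b z z' hb
  induction w generalizing y with
  | nil =>
    funext c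
    have hl : lift PY [b] z' = some z := by simp [lift, hb']
    rw [List.nil_append, flowF_cons_some hl, flowF]
  | cons a w ih =>
    funext c
    have hlift : lift PY (a :: (w ++ [b])) z' = lift PY (a :: w) z :=
      lift_append (a :: w) z z' b hb'
    rw [List.cons_append]
    rcases hl : lift PY (a :: w) z with _ | z1
    · rw [flowF_cons_none (hlift.trans hl), flowF_cons_none hl]
      have hin : inflow PX PY φ a (w ++ [b]) y z' = inflow PX PY φ a w y z := by
        unfold inflow
        rcases PX.act a y with _ | y1
        · rfl
        · simp only [ih y1]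
      rw [hin]
    · rw [flowF_cons_some (hlift.trans hl), flowF_cons_some hl]

end P090H22
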