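import Mathlib

/-!
# P090: basic combinatorial data

The sets `X m = (ZMod m)²` with six involutions; the last involution is split into two letters
according to the parity of the first coordinate.
-/

namespace P090H22

/-- The set `(ZMod m)²`. -/
abbrev X (m : ℕ) : Type := ZMod m × ZMod m

/-- The six involutions of `(ZMod m)²`. -/
def inv6 (m : ℕ) : Fin 6 → X m → X m
  | 0, v => (-v.1, v.2)
  | 1, v => (-v.1 - v.2, v.2)
  | 2, v => (1 - v.1, v.2)
  | 3, v => (v.1, -v.2)
  | 4, v => (v.1, -v.1 - v.2)
  | 5, v => (v.1, 1 - v.2)

theorem inv6_inv6 (m : ℕ) (j : Fin 6) (v : X m) : inv6 m j (inv6 m j v) = v := by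
  fin_cases j <;> simp [inv6]

/-- Parity class of a point of `X m`. -/
def par {m : ℕ} (v : X m) : Bool := v.1.val % 2 == 0

/-- Letters: five letters acting everywhere, and two letters (parity classes) for the sixth
involution. -/
abbrev Letter : Type := Fin 5 ⊕ Bool

/-- Partial action of the letters on `X m`. -/
def actX (m : ℕ) (a : Letter) (v : X m) : Option (X m) :=
  match a with
  | Sum.inl j => some (inv6 m j.castSucc v)
  | Sum.inr b => if par v = b then some (inv6 m 5 v) else none

theorem actX_invol (m : ℕ) (a : Letter) (v v' : X m) (h : actX m a v = some v') :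
    actX m a v' = some v := by
  rcases a with j | b
  · simp only [actX, Option.some.injEq] at h ⊢
    rw [← h, inv6_inv6]
  · simp only [actX] at h ⊢
    split_ifs at h with hp
    simp only [Option.some.injEq] at h
    have h2 : par v' = b := by
      rw [← h, ← hp]; simp [par, inv6]
    rw [if_pos h2, ← h, inv6_inv6]

/-- Six letters are available at each point. -/
theorem actX_deg (m : ℕ) (v : X m) :
    3 ≤ (Finset.univ.filter (fun a : Letter => (actX m a v).isSome)).card := by
  refine le_trans ?_ (Finset.card_le_card (s := (Finset.univ : Finset (Fin 5)).map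
    ⟨Sum.inl, Sum.inl_injective⟩) ?_)
  · simp
  · intro a ha
    simp only [Finset.mem_map, Finset.mem_univ, true_and, Function.Embedding.coeFn_mk] at ha
    obtain ⟨j, rfl⟩ := ha
    rw [Finset.mem_filter]
    exact ⟨Finset.mem_univ _, rfl⟩

end P090H22
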