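import Vale.Agent.Lib.P090H22.ProdGap

/-!
# P090: bounded unit-divergence flows on `X p × X q` with free exits at blocked letters
-/

open Finset

namespace P090H22

namespace Flow

theorem sqrt_abs_sub_sq_le (s t : ℝ) : (√|s| - √|t|) ^ 2 ≤ |s - t| := by
  have h1 : (√|s| - √|t|) ^ 2 ≤ |(|s| - |t|)| := by
    have a1 := Real.sq_sqrt (abs_nonneg s)
    have a2 := Real.sq_sqrt (abs_nonneg t)
    have a3 := Real.sqrt_nonneg |s|
    have a4 := Real.sqrt_nonneg |t|
    rw [← a1, ← a2]
    set u := √|s|
    set v := √|t|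
    have e1 : √(u ^ 2) = u := Real.sqrt_sq a3
    have e2 : √(v ^ 2) = v := Real.sqrt_sq a4
    rw [e1, e2]
    rcases abs_cases (u ^ 2 - v ^ 2) with ⟨h, h'⟩ | ⟨h, h'⟩
    · rw [h]
      have : v ≤ u := by nlinarith
      nlinarith [mul_nonneg a4 (sub_nonneg.2 this), mul_nonneg a3 (sub_nonneg.2 this)]
    · rw [h]
      have : u ≤ v := by nlinarith
      nlinarith [mul_nonneg a4 (sub_nonneg.2 this), mul_nonneg a3 (sub_nonneg.2 this)]
  exact h1.trans (abs_abs_sub_abs_le s t)

/-- The diagonal action of the six involutions. -/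
def dinv (p q : ℕ) (j : Fin 6) (v : X p × X q) : X p × X q := (inv6 p j v.1, inv6 q j v.2)

theorem dinv_dinv {p q : ℕ} (j : Fin 6) (v : X p × X q) : dinv p q j (dinv p q j v) = v := by
  simp [dinv, inv6_inv6]

/-- The cost of a letter at a vertex for the potential `t`. -/
noncomputable def cost {p q : ℕ} (t : X p × X q → ℝ) (a : Letter) (v : X p × X q) : ℝ :=
  match actX p a v.1, actX q a v.2 with
    | some y, some z => |t v - t (y, z)| / 2
    | some _, none => |t v|
    | none, _ => 0

theorem cost_inl {p q : ℕ} (t : X p × X q → ℝ) (j : Fin 5) (v : X p × X q) :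
    cost t (Sum.inl j) v = |t v - t (dinv p q j.castSucc v)| / 2 := rfl

theorem cost_inr {p q : ℕ} (t : X p × X q → ℝ) (b : Bool) (v : X p × X q) :
    cost t (Sum.inr b) v = if par v.1 = b then
      (if par v.2 = b then |t v - t (dinv p q 5 v)| / 2 else |t v|) else 0 := by
  unfold cost actX
  by_cases h1 : par v.1 = b
  · by_cases h2 : par v.2 = b
    · simp only [h1, h2, if_true]; rfl
    · simp only [h1, h2, if_true, if_false]
  · simp only [h1, if_false]

theorem par_dinv_five {p q : ℕ} (v : X p × X q) :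
    par (dinv p q 5 v).1 = par v.1 ∧ par (dinv p q 5 v).2 = par v.2 := by
  constructor <;> rfl

theorem sum_cost {p q : ℕ} [NeZero p] [NeZero q] (t : X p × X q → ℝ) :
    ∑ a : Letter, ∑ v, cost t a v =
      ∑ j : Fin 5, ∑ v, |t v - t (dinv p q j.castSucc v)| / 2 +
      (∑ v with ¬ par v.1 ≠ par v.2, |t v - t (dinv p q 5 v)| / 2 +
        ∑ v with par v.1 ≠ par v.2, |t v|) := by
  rw [Fintype.sum_sum_type]
  congr 1
  rw [sum_comm]
  have : ∀ v : X p × X q, ∑ b : Bool, cost t (Sum.inr b) v =
      if par v.1 ≠ par v.2 then |t v| else |t v - t (dinv p q 5 v)| / 2 := by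
    intro v
    simp only [cost_inr, sum_ite_eq, mem_univ, if_true]
    by_cases h : par v.1 = par v.2
    · simp [h]
    · have h' : ¬ par v.2 = par v.1 := fun e => h e.symm
      simp [h, h']
  rw [sum_congr rfl (fun v _ => this v), sum_ite, add_comm]

end Flow

open P090H22.Flow

/-- Module Flow, part 1 (the `ℓ₁` inequality).  Apply `prod_gap` to `f = √|t|` and use
`(√|s| - √|t|)^2 ≤ |s - t|`.  For letters `inr b`: lockstep iff `par v.1 = b ∧ par v.2 = b`;
the letter `inr (par v.1)` is blocked (available at `v.1`, not at `v.2`) iff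
`par v.1 ≠ par v.2`. -/
theorem l1_gap : ∃ K : ℝ, 1 ≤ K ∧ ∀ (p q : ℕ) [NeZero p] [NeZero q], p.Coprime q → 2 ≤ p →
    2 ≤ q → ∀ t : X p × X q → ℝ,
    ∑ v, |t v| ≤ K * (∑ a : Letter, ∑ v : X p × X q,
      (match actX p a v.1, actX q a v.2 with
        | some y, some z => |t v - t (y, z)| / 2
        | some _, none => |t v|
        | none, _ => 0)) := by
  obtain ⟨C, hC, hgap⟩ := prod_gap
  refine ⟨max 1 (3 * C), le_max_left _ _, ?_⟩
  intro p q _ _ hpq hp hq t
  have hmain : ∑ v, |t v| ≤ 3 * C * ∑ a : Letter, ∑ v, cost t a v := by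
    have h1 := hgap p q hpq hp hq (fun v => √|t v|)
    simp only [Real.sq_sqrt (abs_nonneg _)] at h1
    have h2 : ∑ j : Fin 6, ∑ v, (√|t v| - √|t (inv6 p j v.1, inv6 q j v.2)|) ^ 2 ≤
        ∑ j : Fin 6, ∑ v, |t v - t (dinv p q j v)| := by
      apply sum_le_sum
      intro j _
      apply sum_le_sum
      intro v _
      exact sqrt_abs_sub_sq_le _ _
    have h2' : ∑ j : Fin 6, ∑ v, |t v - t (dinv p q j v)| =
        ∑ j : Fin 5, ∑ v, |t v - t (dinv p q j.castSucc v)| +
          ∑ v, |t v - t (dinv p q 5 v)| := by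
      rw [Fin.sum_univ_castSucc]
      rfl
    rw [h2'] at h2
    have h3 : ∑ v, |t v - t (dinv p q 5 v)| =
        ∑ v with par v.1 ≠ par v.2, |t v - t (dinv p q 5 v)| +
        ∑ v with ¬ par v.1 ≠ par v.2, |t v - t (dinv p q 5 v)| :=
      (sum_filter_add_sum_filter_not _ _ _).symm
    have h4 : ∑ v with par v.1 ≠ par v.2, |t v - t (dinv p q 5 v)| ≤
        2 * ∑ v with par v.1 ≠ par v.2, |t v| := by
      have e1 : ∑ v with par v.1 ≠ par v.2, |t (dinv p q 5 v)| =
          ∑ v with par v.1 ≠ par v.2, |t v| := by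
        refine sum_bij' (fun v _ => dinv p q 5 v) (fun v _ => dinv p q 5 v) ?_ ?_ ?_ ?_ ?_
        · intro v hv
          rw [mem_filter] at hv ⊢
          refine ⟨mem_univ _, ?_⟩
          rw [(par_dinv_five v).1, (par_dinv_five v).2]
          exact hv.2
        · intro v hv
          rw [mem_filter] at hv ⊢
          refine ⟨mem_univ _, ?_⟩
          rw [(par_dinv_five v).1, (par_dinv_five v).2]
          exact hv.2
        · intro v _
          exact dinv_dinv 5 v
        · intro v _
          exact dinv_dinv 5 v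
        · intro v _
          rfl
      calc ∑ v with par v.1 ≠ par v.2, |t v - t (dinv p q 5 v)|
          ≤ ∑ v with par v.1 ≠ par v.2, (|t v| + |t (dinv p q 5 v)|) :=
            sum_le_sum fun v _ => abs_sub _ _
        _ = 2 * ∑ v with par v.1 ≠ par v.2, |t v| := by
            rw [sum_add_distrib, e1, two_mul]
    have h5 := sum_cost t
    have h6 : ∑ j : Fin 5, ∑ v, |t v - t (dinv p q j.castSucc v)| / 2 =
        (∑ j : Fin 5, ∑ v, |t v - t (dinv p q j.castSucc v)|) / 2 := by
      rw [sum_div]
      apply sum_congr rfl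
      intro j _
      rw [sum_div]
    have h7 : ∑ v with ¬ par v.1 ≠ par v.2, |t v - t (dinv p q 5 v)| / 2 =
        (∑ v with ¬ par v.1 ≠ par v.2, |t v - t (dinv p q 5 v)|) / 2 := by
      rw [sum_div]
    rw [h6, h7] at h5
    have n1 : 0 ≤ ∑ j : Fin 5, ∑ v, |t v - t (dinv p q j.castSucc v)| :=
      sum_nonneg fun _ _ => sum_nonneg fun _ _ => abs_nonneg _
    have n2 : 0 ≤ ∑ v with ¬ par v.1 ≠ par v.2, |t v - t (dinv p q 5 v)| :=
      sum_nonneg fun _ _ => abs_nonneg _
    rw [h5]
    have h8 : ∑ j : Fin 6, ∑ v, (√|t v| - √|t (inv6 p j v.1, inv6 q j v.2)|) ^ 2 +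
        ∑ v with par v.1 ≠ par v.2, |t v| ≤
        3 * ((∑ j : Fin 5, ∑ v, |t v - t (dinv p q j.castSucc v)|) / 2 +
      ((∑ v with ¬ par v.1 ≠ par v.2, |t v - t (dinv p q 5 v)|) / 2 +
        ∑ v with par v.1 ≠ par v.2, |t v|)) := by linarith
    have h9 := mul_le_mul_of_nonneg_left h8 hC.le
    refine h1.trans (h9.trans (le_of_eq ?_))
    ring
  have hcost0 : 0 ≤ ∑ a : Letter, ∑ v, cost t a v := by
    apply sum_nonneg
    intro a _
    apply sum_nonneg
    intro v _
    unfold cost
    split <;> positivity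
  calc ∑ v, |t v| ≤ 3 * C * ∑ a : Letter, ∑ v, cost t a v := hmain
    _ ≤ max 1 (3 * C) * ∑ a : Letter, ∑ v, cost t a v := by
        gcongr
        exact le_max_right _ _
    _ = _ := rfl


namespace Flow

/-- The sign function. -/
noncomputable def sg (r : ℝ) : ℝ := if 0 < r then 1 else if r < 0 then -1 else 0

theorem sg_neg (r : ℝ) : sg (-r) = -sg r := by
  unfold sg
  rcases lt_trichotomy r 0 with h | h | h
  · rw [if_pos (by linarith), if_neg (by linarith), if_pos h]; ring
  · subst h; simp
  · rw [if_neg (by linarith), if_pos (by linarith), if_pos h]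

theorem mul_sg (r : ℝ) : sg r * r = |r| := by
  unfold sg
  rcases lt_trichotomy r 0 with h | h | h
  · rw [if_neg (by linarith), if_pos h, abs_of_neg h]; ring
  · subst h; simp
  · rw [if_pos h, abs_of_pos h]; ring

theorem abs_sg_le (r : ℝ) : |sg r| ≤ 1 := by
  unfold sg
  split_ifs <;> simp

/-- The joint partial action, completed by the identity. -/
def joint (p q : ℕ) (a : Letter) (v : X p × X q) : X p × X q :=
  match actX p a v.1, actX q a v.2 with
  | some y, some z => (y, z)
  | _, _ => v

/-- The extremal flow of a potential. -/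
noncomputable def extF {p q : ℕ} (K : ℝ) (t : X p × X q → ℝ) (v : X p × X q) (a : Letter) : ℝ :=
  match actX p a v.1, actX q a v.2 with
  | some y, some z => K * sg (t v - t (y, z))
  | some _, none => K * sg (t v)
  | none, _ => 0

theorem joint_joint {p q : ℕ} (a : Letter) (v : X p × X q) :
    joint p q a (joint p q a v) = v := by
  rcases h1 : actX p a v.1 with _ | y
  · have : joint p q a v = v := by simp [joint, h1]
    rw [this, this]
  · rcases h2 : actX q a v.2 with _ | z
    · have : joint p q a v = v := by simp [joint, h1, h2]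
      rw [this, this]
    · have e : joint p q a v = (y, z) := by simp [joint, h1, h2]
      have h3 := actX_invol p a v.1 y h1
      have h4 := actX_invol q a v.2 z h2
      rw [e]
      simp [joint, h3, h4]

theorem ext_anti {p q : ℕ} (K : ℝ) (t : X p × X q → ℝ) (v : X p × X q) (a : Letter)
    (y' : X p) (z' : X q) (h1 : actX p a v.1 = some y') (h2 : actX q a v.2 = some z') :
    extF K t (y', z') a = -extF K t v a := by
  have h3 := actX_invol p a v.1 y' h1
  have h4 := actX_invol q a v.2 z' h2
  have e1 : extF K t (y', z') a = K * sg (t (y', z') - t v) := by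
    simp [extF, h3, h4]
  have e2 : extF K t v a = K * sg (t v - t (y', z')) := by
    simp [extF, h1, h2]
  rw [e1, e2, show t (y', z') - t v = -(t v - t (y', z')) by ring, sg_neg]
  ring

theorem sum_ext_mul {p q : ℕ} [NeZero p] [NeZero q] (K : ℝ) (t : X p × X q → ℝ) (a : Letter) :
    ∑ v, extF K t v a * t v = K * ∑ v, cost t a v := by
  have hinv : Function.Involutive (joint p q a) := joint_joint a
  have h1 : ∑ v, extF K t (joint p q a v) a * t (joint p q a v) = ∑ v, extF K t v a * t v :=
    Equiv.sum_comp hinv.toPerm (fun v => extF K t v a * t v)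
  have h2 : ∀ v : X p × X q, extF K t v a * t v +
      extF K t (joint p q a v) a * t (joint p q a v) = 2 * (K * cost t a v) := by
    intro v
    rcases e1 : actX p a v.1 with _ | y
    · have : joint p q a v = v := by simp [joint, e1]
      rw [this]
      have e3 : extF K t v a = 0 := by simp [extF, e1]
      have e4 : cost t a v = 0 := by simp [cost, e1]
      rw [e3, e4]; ring
    · rcases e2 : actX q a v.2 with _ | z
      · have : joint p q a v = v := by simp [joint, e1, e2]
        rw [this]
        have e3 : extF K t v a = K * sg (t v) := by simp [extF, e1, e2]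
        have e4 : cost t a v = |t v| := by simp [cost, e1, e2]
        rw [e3, e4, ← mul_sg (t v)]; ring
      · have e : joint p q a v = (y, z) := by simp [joint, e1, e2]
        have e5 := ext_anti K t v a y z e1 e2
        have e3 : extF K t v a = K * sg (t v - t (y, z)) := by simp [extF, e1, e2]
        have e4 : cost t a v = |t v - t (y, z)| / 2 := by simp [cost, e1, e2]
        rw [e, e5, e3, e4, ← mul_sg (t v - t (y, z))]; ring
  have h3 : 2 * ∑ v, extF K t v a * t v = 2 * (K * ∑ v, cost t a v) := by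
    calc 2 * ∑ v, extF K t v a * t v
        = ∑ v, extF K t v a * t v + ∑ v, extF K t (joint p q a v) a * t (joint p q a v) := by
          rw [h1, two_mul]
      _ = ∑ v, 2 * (K * cost t a v) := by
          rw [← sum_add_distrib]
          exact sum_congr rfl fun v _ => h2 v
      _ = 2 * (K * ∑ v, cost t a v) := by
          rw [← mul_sum, ← mul_sum]
  linarith

/-- The set of admissible flows. -/
def flows (p q : ℕ) (K : ℝ) : Set (X p × X q → Letter → ℝ) :=
  {φ | (∀ v a, |φ v a| ≤ K) ∧ (∀ v : X p × X q, ∀ a, actX p a v.1 = none → φ v a = 0) ∧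
    (∀ v : X p × X q, ∀ a y' z', actX p a v.1 = some y' → actX q a v.2 = some z' →
      φ (y', z') a = -φ v a)}

theorem convex_flows (p q : ℕ) (K : ℝ) : Convex ℝ (flows p q K) := by
  intro φ hφ ψ hψ α β hα hβ hαβ
  refine ⟨?_, ?_, ?_⟩
  · intro v a
    have h1 := hφ.1 v a
    have h2 := hψ.1 v a
    calc |(α • φ + β • ψ) v a| = |α * φ v a + β * ψ v a| := rfl
      _ ≤ |α * φ v a| + |β * ψ v a| := abs_add_le _ _
      _ = α * |φ v a| + β * |ψ v a| := by
          rw [abs_mul, abs_mul, abs_of_nonneg hα, abs_of_nonneg hβ]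
      _ ≤ α * K + β * K := by gcongr
      _ = K := by rw [← add_mul, hαβ, one_mul]
  · intro v a h
    show α * φ v a + β * ψ v a = 0
    rw [hφ.2.1 v a h, hψ.2.1 v a h]; ring
  · intro v a y' z' h1 h2
    show α * φ (y', z') a + β * ψ (y', z') a = -(α * φ v a + β * ψ v a)
    rw [hφ.2.2 v a y' z' h1 h2, hψ.2.2 v a y' z' h1 h2]; ring

theorem isClosed_flows (p q : ℕ) (K : ℝ) : IsClosed (flows p q K) := by
  have h1 : IsClosed {φ : X p × X q → Letter → ℝ | ∀ v a, |φ v a| ≤ K} := by
    simp only [Set.ofPred_forall]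
    exact isClosed_iInter fun v => isClosed_iInter fun a =>
      isClosed_le (by fun_prop) continuous_const
  have h2 : IsClosed {φ : X p × X q → Letter → ℝ | ∀ v : X p × X q, ∀ a,
      actX p a v.1 = none → φ v a = 0} := by
    simp only [Set.ofPred_forall]
    exact isClosed_iInter fun v => isClosed_iInter fun a => isClosed_iInter fun _ =>
      isClosed_eq (by fun_prop) continuous_const
  have h3 : IsClosed {φ : X p × X q → Letter → ℝ | ∀ v : X p × X q, ∀ a y' z',
      actX p a v.1 = some y' → actX q a v.2 = some z' → φ (y', z') a = -φ v a} := by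
    simp only [Set.ofPred_forall]
    exact isClosed_iInter fun v => isClosed_iInter fun a => isClosed_iInter fun y' =>
      isClosed_iInter fun z' => isClosed_iInter fun _ => isClosed_iInter fun _ =>
      isClosed_eq (by fun_prop) (by fun_prop)
  exact h1.inter (h2.inter h3)

theorem isCompact_flows (p q : ℕ) [NeZero p] [NeZero q] (K : ℝ) : IsCompact (flows p q K) := by
  have hb : IsCompact (Set.pi Set.univ (fun _ : X p × X q =>
      Set.pi Set.univ (fun _ : Letter => Set.Icc (-K) K))) :=
    isCompact_univ_pi fun _ => isCompact_univ_pi fun _ => isCompact_Icc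
  refine hb.of_isClosed_subset (isClosed_flows p q K) ?_
  intro φ hφ v _ a _
  exact abs_le.1 (hφ.1 v a)

/-- The divergence as a linear map. -/
noncomputable def dvg (p q : ℕ) : (X p × X q → Letter → ℝ) →ₗ[ℝ] (X p × X q → ℝ) where
  toFun φ := fun v => ∑ a, φ v a
  map_add' φ ψ := by
    funext v
    show ∑ a, (φ v a + ψ v a) = ∑ a, φ v a + ∑ a, ψ v a
    rw [sum_add_distrib]
  map_smul' c φ := by
    funext v
    show ∑ a, c * φ v a = c * ∑ a, φ v a
    rw [mul_sum]

end Flow

/-- Module Flow, part 2.  Sketch: let `S` be the compact convex set of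
`φ : X p × X q → Letter → ℝ` with `|φ| ≤ K`, `φ v a = 0` if `a` is not available at `v.1`,
and antisymmetric on lockstep edges.  If the constant function `1` is not in the image of `S`
under `φ ↦ (v ↦ ∑ a, φ v a)` (compact convex), separate
(`geometric_hahn_banach_closed_point`) by `t : X p × X q → ℝ`; then
`φ v a = K * sign (t v - t (v a))` (lockstep), `K * sign (t v)` (blocked) contradicts `l1_gap`. -/
theorem exists_flow : ∃ K : ℝ, 1 ≤ K ∧ ∀ (p q : ℕ) [NeZero p] [NeZero q], p.Coprime q → 2 ≤ p →
    2 ≤ q → ∃ φ : X p → X q → Letter → ℝ,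
      (∀ y z a, |φ y z a| ≤ K) ∧
      (∀ y z a, actX p a y = none → φ y z a = 0) ∧
      (∀ y z, ∑ a, φ y z a = 1) ∧
      (∀ y z a y' z', actX p a y = some y' → actX q a z = some z' → φ y' z' a = - φ y z a) := by
  obtain ⟨K, hK, hgap⟩ := l1_gap
  refine ⟨K, hK, ?_⟩
  intro p q _ _ hpq hp hq
  have hK0 : 0 ≤ K := by linarith
  have hLc : Continuous (dvg p q) := (dvg p q).continuous_of_finiteDimensional
  by_cases h : (fun _ => (1 : ℝ)) ∈ (dvg p q) '' (flows p q K)
  · obtain ⟨φ, hφ, hφ1⟩ := h
    refine ⟨fun y z a => φ (y, z) a, ?_, ?_, ?_, ?_⟩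
    · intro y z a
      exact hφ.1 (y, z) a
    · intro y z a ha
      exact hφ.2.1 (y, z) a ha
    · intro y z
      exact congrFun hφ1 (y, z)
    · intro y z a y' z' h1 h2
      exact hφ.2.2 (y, z) a y' z' h1 h2
  · exfalso
    have hconv : Convex ℝ ((dvg p q) '' (flows p q K)) :=
      (convex_flows p q K).linear_image (dvg p q)
    have hcl : IsClosed ((dvg p q) '' (flows p q K)) :=
      ((isCompact_flows p q K).image hLc).isClosed
    obtain ⟨f, u, hu1, hu2⟩ := geometric_hahn_banach_closed_point hconv hcl h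
    let t : X p × X q → ℝ := fun v => f (fun j => if v = j then 1 else 0)
    have hf : ∀ w : X p × X q → ℝ, f w = ∑ v, w v * t v := by
      intro w
      have := LinearMap.pi_apply_eq_sum_univ (f : (X p × X q → ℝ) →ₗ[ℝ] ℝ) w
      simpa [t] using this
    have hmem : (fun v a => extF K t v a) ∈ flows p q K := by
      refine ⟨?_, ?_, ?_⟩
      · intro v a
        show |extF K t v a| ≤ K
        unfold extF
        split
        · rw [abs_mul, abs_of_nonneg hK0]
          nlinarith [abs_sg_le (t v - t (‹X p›, ‹X q›))]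
        · rw [abs_mul, abs_of_nonneg hK0]
          nlinarith [abs_sg_le (t v)]
        · simpa using hK0
      · intro v a ha
        show extF K t v a = 0
        simp [extF, ha]
      · intro v a y' z' h1 h2
        exact ext_anti K t v a y' z' h1 h2
    have h1 := hu1 _ ⟨_, hmem, rfl⟩
    have h2 : f (dvg p q (fun v a => extF K t v a)) = K * ∑ a : Letter, ∑ v, cost t a v := by
      rw [hf]
      have : ∀ v, (dvg p q (fun v a => extF K t v a)) v * t v = ∑ a, extF K t v a * t v := by
        intro v
        show (∑ a, extF K t v a) * t v = _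
        rw [sum_mul]
      rw [sum_congr rfl (fun v _ => this v), sum_comm, mul_sum]
      exact sum_congr rfl fun a _ => sum_ext_mul K t a
    have h3 : ∑ v, |t v| ≤ K * ∑ a : Letter, ∑ v, cost t a v := hgap p q hpq hp hq t
    have h4 : f (fun _ => (1 : ℝ)) ≤ ∑ v, |t v| := by
      rw [hf]
      apply sum_le_sum
      intro v _
      rw [one_mul]
      exact le_abs_self _
    linarith

end P090H22
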