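import Mathlib

/-!
# Spectral gap for the affine action on `(ZMod m)²` (Fourier proof)
-/

open Finset ZMod

namespace P090H22

variable {m : ℕ} [NeZero m]

/-- Two-dimensional discrete Fourier transform (unnormalised). -/
noncomputable def hat (f : ZMod m × ZMod m → ℂ) (w : ZMod m × ZMod m) : ℂ :=
  ∑ v : ZMod m × ZMod m, stdAddChar (v.1 * w.1 + v.2 * w.2) * f v

theorem char_sum (a : ZMod m) :
    ∑ x : ZMod m, (stdAddChar (x * a) : ℂ) = if a = 0 then (m : ℂ) else 0 := by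
  have h := AddChar.sum_mulShift (R := ZMod m) (R' := ℂ) (ψ := stdAddChar) a
    (isPrimitive_stdAddChar m)
  rw [ZMod.card] at h
  simpa using h

theorem char_sum2 (a : ZMod m × ZMod m) :
    ∑ w : ZMod m × ZMod m, (stdAddChar (w.1 * a.1 + w.2 * a.2) : ℂ)
      = if a = 0 then (m : ℂ) ^ 2 else 0 := by
  rw [Fintype.sum_prod_type]
  simp only [AddChar.map_add_eq_mul]
  simp_rw [← Finset.mul_sum]
  rw [← Finset.sum_mul, char_sum, char_sum]
  rcases a with ⟨a, b⟩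
  by_cases ha : a = 0 <;> by_cases hb : b = 0 <;> simp [ha, hb, sq, Prod.ext_iff]

theorem conj_char (a : ZMod m) :
    (starRingEnd ℂ) (stdAddChar a) = stdAddChar (-a) := by
  rw [AddChar.map_neg_eq_conj]

theorem parseval (f : ZMod m × ZMod m → ℂ) :
    ∑ w, ‖hat f w‖ ^ 2 = (m : ℝ) ^ 2 * ∑ v, ‖f v‖ ^ 2 := by
  have key : (∑ w, (hat f w) * (starRingEnd ℂ) (hat f w))
      = (m : ℂ) ^ 2 * ∑ v, f v * (starRingEnd ℂ) (f v) := by
    unfold hat
    simp only [map_sum, map_mul, conj_char, Finset.sum_mul_sum]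
    rw [Finset.sum_comm, Finset.mul_sum]
    apply Finset.sum_congr rfl
    intro v _
    rw [Finset.sum_comm]
    have : ∀ v' : ZMod m × ZMod m,
        ∑ w : ZMod m × ZMod m, stdAddChar (v.1 * w.1 + v.2 * w.2) * f v *
          (stdAddChar (-(v'.1 * w.1 + v'.2 * w.2)) * (starRingEnd ℂ) (f v'))
        = (if v = v' then (m : ℂ) ^ 2 else 0) * (f v * (starRingEnd ℂ) (f v')) := by
      intro v'
      have h1 : ∀ w : ZMod m × ZMod m, stdAddChar (v.1 * w.1 + v.2 * w.2) * f v *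
          (stdAddChar (-(v'.1 * w.1 + v'.2 * w.2)) * (starRingEnd ℂ) (f v'))
          = stdAddChar (w.1 * (v - v').1 + w.2 * (v - v').2) * (f v * (starRingEnd ℂ) (f v')) := by
        intro w
        have : w.1 * (v - v').1 + w.2 * (v - v').2
            = (v.1 * w.1 + v.2 * w.2) + (-(v'.1 * w.1 + v'.2 * w.2)) := by
          simp only [Prod.fst_sub, Prod.snd_sub]; ring
        rw [this, AddChar.map_add_eq_mul stdAddChar (v.1 * w.1 + v.2 * w.2) _]; ring
      simp_rw [h1]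
      rw [← Finset.sum_mul, char_sum2]
      congr 1
      simp [sub_eq_zero]
    simp_rw [this]
    simp
  have h2 : ∀ z : ℂ, z * (starRingEnd ℂ) z = ((‖z‖ ^ 2 : ℝ) : ℂ) := by
    intro z
    rw [Complex.mul_conj, Complex.normSq_eq_norm_sq]
  simp_rw [h2] at key
  exact_mod_cast key

/-! ### Transformation rules -/

theorem hat_S (f : ZMod m × ZMod m → ℂ) (w : ZMod m × ZMod m) :
    hat (fun v => f (v.1 + v.2, v.2)) w = hat f (w.1, w.2 - w.1) := by
  unfold hat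
  let e : ZMod m × ZMod m ≃ ZMod m × ZMod m :=
    { toFun := fun v => (v.1 + v.2, v.2)
      invFun := fun v => (v.1 - v.2, v.2)
      left_inv := fun v => by simp
      right_inv := fun v => by simp }
  refine Fintype.sum_equiv e _ _ (fun v => ?_)
  simp only [e, Equiv.coe_fn_mk]
  congr 2
  ring

theorem hat_T (f : ZMod m × ZMod m → ℂ) (w : ZMod m × ZMod m) :
    hat (fun v => f (v.1, v.1 + v.2)) w = hat f (w.1 - w.2, w.2) := by
  unfold hat
  let e : ZMod m × ZMod m ≃ ZMod m × ZMod m :=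
    { toFun := fun v => (v.1, v.1 + v.2)
      invFun := fun v => (v.1, v.2 - v.1)
      left_inv := fun v => by simp
      right_inv := fun v => by simp }
  refine Fintype.sum_equiv e _ _ (fun v => ?_)
  simp only [e, Equiv.coe_fn_mk]
  congr 2
  ring

theorem hat_tau1 (f : ZMod m × ZMod m → ℂ) (w : ZMod m × ZMod m) :
    hat (fun v => f (v.1 + 1, v.2)) w = stdAddChar (-w.1) * hat f w := by
  unfold hat
  rw [Finset.mul_sum]
  let e : ZMod m × ZMod m ≃ ZMod m × ZMod m :=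
    { toFun := fun v => (v.1 + 1, v.2)
      invFun := fun v => (v.1 - 1, v.2)
      left_inv := fun v => by simp
      right_inv := fun v => by simp }
  refine Fintype.sum_equiv e _ _ (fun v => ?_)
  simp only [e, Equiv.coe_fn_mk]
  rw [← mul_assoc, ← AddChar.map_add_eq_mul]
  congr 2
  ring

theorem hat_tau2 (f : ZMod m × ZMod m → ℂ) (w : ZMod m × ZMod m) :
    hat (fun v => f (v.1, v.2 + 1)) w = stdAddChar (-w.2) * hat f w := by
  unfold hat
  rw [Finset.mul_sum]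
  let e : ZMod m × ZMod m ≃ ZMod m × ZMod m :=
    { toFun := fun v => (v.1, v.2 + 1)
      invFun := fun v => (v.1, v.2 - 1)
      left_inv := fun v => by simp
      right_inv := fun v => by simp }
  refine Fintype.sum_equiv e _ _ (fun v => ?_)
  simp only [e, Equiv.coe_fn_mk]
  rw [← mul_assoc, ← AddChar.map_add_eq_mul]
  congr 2
  ring

theorem hat_sub (f g : ZMod m × ZMod m → ℂ) (w : ZMod m × ZMod m) :
    hat (fun v => f v - g v) w = hat f w - hat g w := by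
  unfold hat
  rw [← Finset.sum_sub_distrib]
  apply Finset.sum_congr rfl
  intro v _
  ring

/-! ### Sector argument -/

/-- The small frequencies. -/
def Dm (w : ZMod m × ZMod m) : Prop :=
  4 * |w.1.valMinAbs| < m ∧ 4 * |w.2.valMinAbs| < m

theorem val_add {w : ZMod m × ZMod m} (h : Dm w) :
    (w.1 + w.2).valMinAbs = w.1.valMinAbs + w.2.valMinAbs := by
  rw [valMinAbs_spec]
  refine ⟨by simp, ?_⟩
  obtain ⟨h1, h2⟩ := h
  have h3 := abs_lt.1 (show |w.1.valMinAbs| < m / 4 + 1 by omega)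
  have a1 := neg_abs_le w.1.valMinAbs
  have a2 := le_abs_self w.1.valMinAbs
  have a3 := neg_abs_le w.2.valMinAbs
  have a4 := le_abs_self w.2.valMinAbs
  constructor <;> omega

theorem val_neg_of_Dm {x : ZMod m} (h : 4 * |x.valMinAbs| < m) :
    (-x).valMinAbs = -x.valMinAbs := by
  rw [valMinAbs_spec]
  refine ⟨by simp, ?_⟩
  have a1 := neg_abs_le x.valMinAbs
  have a2 := le_abs_self x.valMinAbs
  constructor <;> omega

open Classical in
theorem sector_main (ν : ZMod m × ZMod m → ℝ) (hν : ∀ w, 0 ≤ ν w) (δ : ℝ)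
    (hA : ∀ W : Finset (ZMod m × ZMod m),
      ∑ w ∈ W, ν w ≤ ∑ w ∈ W, ν (w.1, w.1 + w.2) + δ) :
    ∑ w with (Dm w ∧ 0 ≤ w.1.valMinAbs * w.2.valMinAbs ∧ |w.2.valMinAbs| < |w.1.valMinAbs|), ν w
      ≤ δ + ∑ w with ¬ Dm w, ν w := by
  set S1 : Finset (ZMod m × ZMod m) := univ.filter
    (fun w => Dm w ∧ 0 ≤ w.1.valMinAbs * w.2.valMinAbs ∧ |w.2.valMinAbs| < |w.1.valMinAbs|) with hS1
  set W1 : Finset (ZMod m × ZMod m) := univ.filter
    (fun w => Dm w ∧ 0 ≤ w.1.valMinAbs * w.2.valMinAbs ∧ w.1.valMinAbs ≠ 0) with hW1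
  set Dc : Finset (ZMod m × ZMod m) := univ.filter (fun w => ¬ Dm w) with hDc
  have hsub : S1 ⊆ W1 := by
    intro w hw
    simp only [hS1, mem_filter, mem_univ, true_and] at hw
    simp only [hW1, mem_filter, mem_univ, true_and]
    refine ⟨hw.1, hw.2.1, ?_⟩
    intro h0
    rw [h0] at hw
    have := abs_nonneg w.2.valMinAbs
    simp at hw
    omega
  have hinj : Set.InjOn (fun w : ZMod m × ZMod m => (w.1, w.1 + w.2)) W1 := by
    intro u _ v _ h
    simp only [Prod.mk.injEq] at h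
    obtain ⟨h1, h2⟩ := h
    rw [h1] at h2
    exact Prod.ext h1 (add_left_cancel h2)
  have himg : ∑ w ∈ W1, ν (w.1, w.1 + w.2)
      = ∑ w ∈ W1.image (fun w : ZMod m × ZMod m => (w.1, w.1 + w.2)), ν w := by
    rw [Finset.sum_image hinj]
  have hsub2 : W1.image (fun w : ZMod m × ZMod m => (w.1, w.1 + w.2)) ⊆ (W1 \ S1) ∪ Dc := by
    intro u hu
    rw [mem_image] at hu
    obtain ⟨w, hw, rfl⟩ := hu
    simp only [hW1, mem_filter, mem_univ, true_and] at hw
    rw [mem_union]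
    by_cases hD : Dm (w.1, w.1 + w.2)
    · left
      obtain ⟨hd, hab, ha⟩ := hw
      have hval := val_add hd
      have habs : |w.1.valMinAbs| ≤ |w.1.valMinAbs + w.2.valMinAbs| := by
        rcases lt_or_gt_of_ne ha with h | h
        · have hb : w.2.valMinAbs ≤ 0 := by
            by_contra hb
            push Not at hb
            have := mul_neg_of_neg_of_pos h hb
            omega
          rw [abs_of_neg h, abs_of_neg (by omega)]
          omega
        · have hb : 0 ≤ w.2.valMinAbs := by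
            by_contra hb
            push Not at hb
            have := mul_neg_of_pos_of_neg h hb
            omega
          rw [abs_of_pos h, abs_of_pos (by omega)]
          omega
      have hsign : 0 ≤ w.1.valMinAbs * (w.1.valMinAbs + w.2.valMinAbs) := by
        rw [mul_add]
        have := mul_self_nonneg w.1.valMinAbs
        omega
      rw [mem_sdiff]
      constructor
      · simp only [hW1, mem_filter, mem_univ, true_and]
        refine ⟨hD, ?_, ha⟩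
        rw [hval]; exact hsign
      · simp only [hS1, mem_filter, mem_univ, true_and]
        rintro ⟨-, -, h3⟩
        rw [hval] at h3
        omega
    · right
      simp only [hDc, mem_filter, mem_univ, true_and]
      exact hD
  have h1 := hA W1
  have h2 : ∑ w ∈ (W1 \ S1) ∪ Dc, ν w ≤ ∑ w ∈ W1 \ S1, ν w + ∑ w ∈ Dc, ν w := by
    rw [← Finset.sum_union_inter]
    have := Finset.sum_nonneg (s := (W1 \ S1) ∩ Dc) (f := ν) (fun w _ => hν w)
    linarith
  have h3 : ∑ w ∈ W1.image (fun w : ZMod m × ZMod m => (w.1, w.1 + w.2)), ν w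
      ≤ ∑ w ∈ (W1 \ S1) ∪ Dc, ν w :=
    Finset.sum_le_sum_of_subset_of_nonneg hsub2 (fun w _ _ => hν w)
  have h4 := Finset.sum_sdiff (f := ν) hsub
  rw [himg] at h1
  linarith

/-- Transport of the almost-invariance hypothesis under a bijection. -/
theorem transport_hyp {α : Type*} [DecidableEq α] (ν : α → ℝ) (δ : ℝ) (e : α ≃ α)
    (g g' : α → α)
    (h : ∀ W : Finset α, ∑ w ∈ W, ν w ≤ ∑ w ∈ W, ν (g w) + δ)
    (hg : ∀ w, g (e w) = e (g' w)) (W : Finset α) :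
    ∑ w ∈ W, ν (e w) ≤ ∑ w ∈ W, ν (e (g' w)) + δ := by
  have := h (W.map e.toEmbedding)
  rw [Finset.sum_map, Finset.sum_map] at this
  simpa [hg] using this

theorem sum_union_le' {α : Type*} [DecidableEq α] (ν : α → ℝ) (hν : ∀ w, 0 ≤ ν w) (s t : Finset α) :
    ∑ w ∈ s ∪ t, ν w ≤ ∑ w ∈ s, ν w + ∑ w ∈ t, ν w := by
  rw [← Finset.sum_union_inter]
  have := Finset.sum_nonneg (s := s ∩ t) (f := ν) (fun w _ => hν w)
  linarith

omit [NeZero m] in
theorem natAbs_neg' (x : ZMod m) : |(-x).valMinAbs| = |x.valMinAbs| := by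
  have := natAbs_valMinAbs_neg x
  rw [Int.abs_eq_natAbs, Int.abs_eq_natAbs, this]

omit [NeZero m] in
theorem Dm_swap (w : ZMod m × ZMod m) : Dm w.swap ↔ Dm w := by
  simp only [Dm, Prod.fst_swap, Prod.snd_swap]
  exact and_comm

open Classical in
theorem sector_pos (ν : ZMod m × ZMod m → ℝ) (hν : ∀ w, 0 ≤ ν w) (δ : ℝ)
    (hA : ∀ W : Finset (ZMod m × ZMod m),
      ∑ w ∈ W, ν w ≤ ∑ w ∈ W, ν (w.1, w.1 + w.2) + δ)
    (hB : ∀ W : Finset (ZMod m × ZMod m),
      ∑ w ∈ W, ν w ≤ ∑ w ∈ W, ν (w.1 + w.2, w.2) + δ) :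
    ∑ w with (Dm w ∧ 0 ≤ w.1.valMinAbs * w.2.valMinAbs ∧ w ≠ 0), ν w
      ≤ 4 * δ + 4 * ∑ w with ¬ Dm w, ν w := by
  have h1 := sector_main ν hν δ hA
  have h2 := sector_main (fun w => ν w.swap) (fun w => hν _) δ
    (transport_hyp ν δ (Equiv.prodComm _ _) (fun w => (w.1 + w.2, w.2))
      (fun w => (w.1, w.1 + w.2)) hB (fun w => by
        simp only [Equiv.prodComm_apply, Prod.swap]
        rw [add_comm]))
  have h2' : ∑ w : ZMod m × ZMod m with (Dm w ∧ 0 ≤ w.1.valMinAbs * w.2.valMinAbs ∧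
      |w.1.valMinAbs| < |w.2.valMinAbs|), ν w ≤ δ + ∑ w with ¬ Dm w, ν w := by
    convert h2 using 1
    · refine Finset.sum_equiv (Equiv.prodComm _ _) (fun w => ?_) (fun w _ => ?_)
      · rw [mem_filter, mem_filter]
        simp only [mem_univ, true_and, Equiv.prodComm_apply, Prod.fst_swap,
          Prod.snd_swap, Dm_swap]
        rw [mul_comm]
      · simp
    · congr 1
      refine Finset.sum_equiv (Equiv.prodComm _ _) (fun w => ?_) (fun w _ => ?_)
      · rw [mem_filter, mem_filter]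
        simp only [mem_univ, true_and, Equiv.prodComm_apply, Dm_swap]
      · simp
  -- the diagonal
  have h3 : ∑ w : ZMod m × ZMod m with (Dm w ∧ w.1.valMinAbs = w.2.valMinAbs ∧ w ≠ 0), ν w
      ≤ δ + ((δ + ∑ w with ¬ Dm w, ν w) + ∑ w with ¬ Dm w, ν w) := by
    refine (hA _).trans ?_
    rw [add_comm]
    gcongr
    have hinj : Set.InjOn (fun w : ZMod m × ZMod m => (w.1, w.1 + w.2))
        ((univ.filter fun w : ZMod m × ZMod m => (Dm w ∧ w.1.valMinAbs = w.2.valMinAbs ∧ w ≠ 0) :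
          Finset (ZMod m × ZMod m)) : Set (ZMod m × ZMod m)) := by
      intro u _ v _ h
      simp only [Prod.mk.injEq] at h
      obtain ⟨h1, h2⟩ := h
      rw [h1] at h2
      exact Prod.ext h1 (add_left_cancel h2)
    rw [← Finset.sum_image (f := ν) hinj]
    refine le_trans (Finset.sum_le_sum_of_subset_of_nonneg (t :=
      (univ.filter fun w : ZMod m × ZMod m => (Dm w ∧ 0 ≤ w.1.valMinAbs * w.2.valMinAbs ∧
      |w.1.valMinAbs| < |w.2.valMinAbs|)) ∪ (univ.filter fun w => ¬ Dm w)) ?_ (fun w _ _ => hν w)) ?_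
    · intro u hu
      rw [mem_image] at hu
      obtain ⟨w, hw, rfl⟩ := hu
      simp only [mem_filter, mem_univ, true_and] at hw
      obtain ⟨hd, hab, h0⟩ := hw
      simp only [mem_union, mem_filter, mem_univ, true_and]
      by_cases hD : Dm (w.1, w.1 + w.2)
      · left
        have hval := val_add hd
        refine ⟨hD, ?_, ?_⟩
        · rw [hval, ← hab]
          have := mul_self_nonneg w.1.valMinAbs
          rw [mul_add]; omega
        · rw [hval, ← hab]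
          have hne : w.1.valMinAbs ≠ 0 := by
            intro h
            apply h0
            rw [valMinAbs_eq_zero] at h
            rw [h, valMinAbs_zero] at hab
            have := (valMinAbs_eq_zero w.2).1 hab.symm
            exact Prod.ext h this
          have : 0 < |w.1.valMinAbs| := abs_pos.2 hne
          have h5 : |w.1.valMinAbs + w.1.valMinAbs| = 2 * |w.1.valMinAbs| := by
            rw [← two_mul, abs_mul]; simp
          omega
      · right; exact hD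
    · refine (sum_union_le' _ hν _ _).trans ?_
      gcongr
  refine le_trans (Finset.sum_le_sum_of_subset_of_nonneg (t :=
    ((univ.filter fun w : ZMod m × ZMod m => (Dm w ∧ 0 ≤ w.1.valMinAbs * w.2.valMinAbs ∧
      |w.2.valMinAbs| < |w.1.valMinAbs|)) ∪
    (univ.filter fun w : ZMod m × ZMod m => (Dm w ∧ 0 ≤ w.1.valMinAbs * w.2.valMinAbs ∧
      |w.1.valMinAbs| < |w.2.valMinAbs|))) ∪
      (univ.filter fun w : ZMod m × ZMod m => (Dm w ∧ w.1.valMinAbs = w.2.valMinAbs ∧ w ≠ 0)))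
      ?_ (fun w _ _ => hν w)) ?_
  · intro w hw
    simp only [mem_union, mem_filter, mem_univ, true_and] at hw ⊢
    obtain ⟨hd, hab, h0⟩ := hw
    rcases lt_trichotomy |w.1.valMinAbs| |w.2.valMinAbs| with h | h | h
    · left; right; exact ⟨hd, hab, h⟩
    · right
      refine ⟨hd, ?_, h0⟩
      rcases abs_eq_abs.1 h with h | h
      · exact h
      · rw [h] at hab
        have h5 := mul_self_nonneg w.2.valMinAbs
        have h6 : w.2.valMinAbs * w.2.valMinAbs = 0 := by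
          have : -w.2.valMinAbs * w.2.valMinAbs = -(w.2.valMinAbs * w.2.valMinAbs) := by ring
          rw [this] at hab
          omega
        have h7 : w.2.valMinAbs = 0 := mul_self_eq_zero.1 h6
        rw [h, h7]; rfl
    · left; left; exact ⟨hd, hab, h⟩
  · refine (sum_union_le' _ hν _ _).trans ?_
    have h5 := sum_union_le' _ hν
      (univ.filter fun w : ZMod m × ZMod m => (Dm w ∧ 0 ≤ w.1.valMinAbs * w.2.valMinAbs ∧
        |w.2.valMinAbs| < |w.1.valMinAbs|))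
      (univ.filter fun w : ZMod m × ZMod m => (Dm w ∧ 0 ≤ w.1.valMinAbs * w.2.valMinAbs ∧
        |w.1.valMinAbs| < |w.2.valMinAbs|))
    linarith

/-- The involution `(ξ, η) ↦ (ξ, -η)`. -/
def neg2 : ZMod m × ZMod m ≃ ZMod m × ZMod m where
  toFun w := (w.1, -w.2)
  invFun w := (w.1, -w.2)
  left_inv w := by simp
  right_inv w := by simp

omit [NeZero m] in
theorem Dm_neg2 (w : ZMod m × ZMod m) : Dm (neg2 w) ↔ Dm w := by
  simp only [Dm, neg2, Equiv.coe_fn_mk, natAbs_neg']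

open Classical in
theorem sector_all (ν : ZMod m × ZMod m → ℝ) (hν : ∀ w, 0 ≤ ν w) (h0 : ν 0 = 0) (δ : ℝ)
    (hA : ∀ W : Finset (ZMod m × ZMod m),
      ∑ w ∈ W, ν w ≤ ∑ w ∈ W, ν (w.1, w.1 + w.2) + δ)
    (hA' : ∀ W : Finset (ZMod m × ZMod m),
      ∑ w ∈ W, ν w ≤ ∑ w ∈ W, ν (w.1, w.2 - w.1) + δ)
    (hB : ∀ W : Finset (ZMod m × ZMod m),
      ∑ w ∈ W, ν w ≤ ∑ w ∈ W, ν (w.1 + w.2, w.2) + δ)
    (hB' : ∀ W : Finset (ZMod m × ZMod m),
      ∑ w ∈ W, ν w ≤ ∑ w ∈ W, ν (w.1 - w.2, w.2) + δ) :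
    ∑ w, ν w ≤ 8 * δ + 9 * ∑ w with ¬ Dm w, ν w := by
  have h1 := sector_pos ν hν δ hA hB
  have h2 := sector_pos (fun w => ν (neg2 w)) (fun w => hν _) δ
    (transport_hyp ν δ neg2 (fun w => (w.1, w.2 - w.1))
      (fun w => (w.1, w.1 + w.2)) hA' (fun w => by
        simp only [neg2, Equiv.coe_fn_mk]
        ext <;> simp <;> ring))
    (transport_hyp ν δ neg2 (fun w => (w.1 - w.2, w.2))
      (fun w => (w.1 + w.2, w.2)) hB' (fun w => by
        simp only [neg2, Equiv.coe_fn_mk]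
        ext <;> simp))
  have h2' : ∑ w : ZMod m × ZMod m with (Dm w ∧ w.1.valMinAbs * w.2.valMinAbs ≤ 0 ∧ w ≠ 0), ν w
      ≤ 4 * δ + 4 * ∑ w with ¬ Dm w, ν w := by
    convert h2 using 1
    · refine Finset.sum_equiv neg2 (fun w => ?_) (fun w _ => ?_)
      · simp only [mem_filter, mem_univ, true_and, Dm_neg2]
        constructor
        · rintro ⟨hd, hab, h0⟩
          refine ⟨hd, ?_, ?_⟩
          · simp only [neg2, Equiv.coe_fn_mk, val_neg_of_Dm hd.2]
            rw [mul_neg]; omega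
          · intro h
            apply h0
            simp only [neg2, Equiv.coe_fn_mk] at h
            have ha := congrArg Prod.fst h
            have hb := congrArg Prod.snd h
            simp only [Prod.fst_zero, Prod.snd_zero, neg_eq_zero] at ha hb
            exact Prod.ext ha hb
        · rintro ⟨hd, hab, h0⟩
          refine ⟨hd, ?_, ?_⟩
          · simp only [neg2, Equiv.coe_fn_mk, val_neg_of_Dm hd.2] at hab
            rw [mul_neg] at hab; omega
          · rintro rfl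
            apply h0
            simp [neg2]
      · simp [neg2]
    · congr 2
      refine Finset.sum_equiv neg2 (fun w => ?_) (fun w _ => ?_)
      · simp only [mem_filter, mem_univ, true_and, Dm_neg2]
      · simp [neg2]
  have h3 : ∑ w, ν w ≤ ∑ w ∈ ((univ.filter fun w : ZMod m × ZMod m =>
      (Dm w ∧ 0 ≤ w.1.valMinAbs * w.2.valMinAbs ∧ w ≠ 0)) ∪
      (univ.filter fun w : ZMod m × ZMod m =>
      (Dm w ∧ w.1.valMinAbs * w.2.valMinAbs ≤ 0 ∧ w ≠ 0))) ∪
      (univ.filter fun w : ZMod m × ZMod m => ¬ Dm w), ν w := by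
    rw [← Finset.sum_subset (Finset.subset_univ _)]
    intro w _ hw
    simp only [mem_union, mem_filter, mem_univ, true_and, not_or, not_not] at hw
    obtain ⟨⟨ha, hb⟩, hc⟩ := hw
    by_contra hne
    have hw0 : w ≠ 0 := by
      rintro rfl
      exact hne h0
    rcases le_total 0 (w.1.valMinAbs * w.2.valMinAbs) with h | h
    · exact ha ⟨hc, h, hw0⟩
    · exact hb ⟨hc, h, hw0⟩
  have h4 := sum_union_le' _ hν ((univ.filter fun w : ZMod m × ZMod m =>
      (Dm w ∧ 0 ≤ w.1.valMinAbs * w.2.valMinAbs ∧ w ≠ 0)) ∪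
      (univ.filter fun w : ZMod m × ZMod m =>
      (Dm w ∧ w.1.valMinAbs * w.2.valMinAbs ≤ 0 ∧ w ≠ 0)))
      (univ.filter fun w : ZMod m × ZMod m => ¬ Dm w)
  have h5 := sum_union_le' _ hν (univ.filter fun w : ZMod m × ZMod m =>
      (Dm w ∧ 0 ≤ w.1.valMinAbs * w.2.valMinAbs ∧ w ≠ 0))
      (univ.filter fun w : ZMod m × ZMod m =>
      (Dm w ∧ w.1.valMinAbs * w.2.valMinAbs ≤ 0 ∧ w ≠ 0))
  linarith

/-! ### Conclusion -/

theorem char_far (x : ZMod m) (h : (m : ℤ) ≤ 4 * |x.valMinAbs|) :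
    2 ≤ ‖(1 : ℂ) - stdAddChar (-x)‖ ^ 2 := by
  have hm : (0 : ℝ) < m := by exact_mod_cast NeZero.pos m
  set j : ℤ := -x.valMinAbs with hj
  have hx : -x = ((j : ℤ) : ZMod m) := by rw [hj]; simp
  rw [hx, stdAddChar_coe]
  set θ : ℝ := 2 * Real.pi * j / m with hθ
  have h1 : (2 * (Real.pi : ℂ) * Complex.I * j / m) = (θ : ℂ) * Complex.I := by
    rw [hθ]; push_cast; ring
  rw [h1]
  have h2 : ‖(1 : ℂ) - Complex.exp ((θ : ℂ) * Complex.I)‖ ^ 2 = 2 - 2 * Real.cos θ := by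
    rw [← Complex.normSq_eq_norm_sq, Complex.normSq_apply]
    simp only [Complex.sub_re, Complex.sub_im, Complex.one_re, Complex.one_im,
      Complex.exp_ofReal_mul_I_re, Complex.exp_ofReal_mul_I_im]
    nlinarith [Real.sin_sq_add_cos_sq θ]
  rw [h2]
  have habs : |θ| = 2 * Real.pi * |(j : ℝ)| / m := by
    rw [hθ, abs_div, abs_mul, abs_of_pos hm, abs_of_pos (by positivity : (0 : ℝ) < 2 * Real.pi)]
  have hja : (|j| : ℤ) = |x.valMinAbs| := by rw [hj, abs_neg]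
  have hj1 : (m : ℝ) ≤ 4 * |(j : ℝ)| := by
    rw [← hja] at h
    have : ((m : ℤ) : ℝ) ≤ ((4 * |j| : ℤ) : ℝ) := by exact_mod_cast h
    push_cast at this
    exact this
  have hj2 : 2 * |(j : ℝ)| ≤ m := by
    have h3 := valMinAbs_mem_Ioc x
    have h4 : 2 * |j| ≤ (m : ℤ) := by
      rw [hja]
      rcases abs_cases x.valMinAbs with h | h
      · rw [h.1]; linarith [h3.2]
      · rw [h.1]; linarith [h3.1]
    have : ((2 * |j| : ℤ) : ℝ) ≤ ((m : ℤ) : ℝ) := by exact_mod_cast h4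
    push_cast at this
    exact this
  have hc : Real.cos θ ≤ 0 := by
    rw [← Real.cos_abs]
    apply Real.cos_nonpos_of_pi_div_two_le_of_le
    · rw [habs, le_div_iff₀ hm]
      nlinarith [Real.pi_pos]
    · rw [habs]
      have : 2 * Real.pi * |(j : ℝ)| / m ≤ Real.pi := by
        rw [div_le_iff₀ hm]
        nlinarith [Real.pi_pos]
      linarith [Real.pi_pos]
  linarith

theorem sum_abs_diff_le {α : Type*} [Fintype α] (F : α → ℂ) (e : α ≃ α) (D P : ℝ)
    (hD : ∑ w, ‖F w - F (e w)‖ ^ 2 ≤ D) (hP : ∑ w, ‖F w‖ ^ 2 = P) :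
    ∑ w, |‖F w‖ ^ 2 - ‖F (e w)‖ ^ 2| ≤ 2 * √(P * D) := by
  have hP0 : 0 ≤ P := by rw [← hP]; positivity
  have hP2 : ∑ w, ‖F (e w)‖ ^ 2 = P := by
    rw [← hP]; exact Equiv.sum_comp e (fun w => ‖F w‖ ^ 2)
  have h1 : ∀ w, |‖F w‖ ^ 2 - ‖F (e w)‖ ^ 2| ≤ ‖F w - F (e w)‖ * (‖F w‖ + ‖F (e w)‖) := by
    intro w
    have h2 : ‖F w‖ ^ 2 - ‖F (e w)‖ ^ 2 = (‖F w‖ - ‖F (e w)‖) * (‖F w‖ + ‖F (e w)‖) := by ring
    rw [h2, abs_mul, abs_of_nonneg (by positivity : 0 ≤ ‖F w‖ + ‖F (e w)‖)]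
    gcongr
    exact abs_norm_sub_norm_le _ _
  have h3 : ∑ w, (‖F w‖ + ‖F (e w)‖) ^ 2 ≤ 4 * P := by
    calc ∑ w, (‖F w‖ + ‖F (e w)‖) ^ 2 ≤ ∑ w, (2 * ‖F w‖ ^ 2 + 2 * ‖F (e w)‖ ^ 2) := by
          gcongr with w
          nlinarith [sq_nonneg (‖F w‖ - ‖F (e w)‖)]
      _ = 4 * P := by
          rw [Finset.sum_add_distrib, ← Finset.mul_sum, ← Finset.mul_sum, hP, hP2]; ring
  have h4 := Finset.sum_mul_sq_le_sq_mul_sq univ (fun w => ‖F w - F (e w)‖)
    (fun w => ‖F w‖ + ‖F (e w)‖)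
  calc ∑ w, |‖F w‖ ^ 2 - ‖F (e w)‖ ^ 2| ≤ ∑ w, ‖F w - F (e w)‖ * (‖F w‖ + ‖F (e w)‖) :=
        Finset.sum_le_sum (fun w _ => h1 w)
    _ ≤ √(D * (4 * P)) := by
        apply Real.le_sqrt_of_sq_le
        refine h4.trans ?_
        gcongr
        exact (Finset.sum_nonneg (fun w _ => by positivity)).trans hD
    _ = 2 * √(P * D) := by
        rw [show D * (4 * P) = 2 ^ 2 * (P * D) by ring, Real.sqrt_mul (by positivity),
          Real.sqrt_sq (by norm_num)]

theorem inv_bound {α : Type*} [Fintype α] (F : α → ℂ) (e : α ≃ α) (D P : ℝ)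
    (hD : ∑ w, ‖F w - F (e w)‖ ^ 2 ≤ D) (hP : ∑ w, ‖F w‖ ^ 2 = P) (W : Finset α) :
    ∑ w ∈ W, ‖F w‖ ^ 2 ≤ ∑ w ∈ W, ‖F (e w)‖ ^ 2 + 2 * √(P * D) := by
  have h1 := sum_abs_diff_le F e D P hD hP
  have h2 : ∑ w ∈ W, ‖F w‖ ^ 2 - ∑ w ∈ W, ‖F (e w)‖ ^ 2
      ≤ ∑ w, |‖F w‖ ^ 2 - ‖F (e w)‖ ^ 2| := by
    rw [← Finset.sum_sub_distrib]
    calc ∑ w ∈ W, (‖F w‖ ^ 2 - ‖F (e w)‖ ^ 2) ≤ ∑ w ∈ W, |‖F w‖ ^ 2 - ‖F (e w)‖ ^ 2| :=
          Finset.sum_le_sum (fun w _ => le_abs_self _)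
      _ ≤ _ := Finset.sum_le_sum_of_subset_of_nonneg (Finset.subset_univ _)
          (fun w _ _ => abs_nonneg _)
  linarith

theorem inv_bound_symm {α : Type*} [Fintype α] (F : α → ℂ) (e : α ≃ α) (D P : ℝ)
    (hD : ∑ w, ‖F w - F (e w)‖ ^ 2 ≤ D) (hP : ∑ w, ‖F w‖ ^ 2 = P) (W : Finset α) :
    ∑ w ∈ W, ‖F w‖ ^ 2 ≤ ∑ w ∈ W, ‖F (e.symm w)‖ ^ 2 + 2 * √(P * D) := by
  apply inv_bound F e.symm D P _ hP
  rw [← Equiv.sum_comp e]
  simp only [Equiv.symm_apply_apply]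
  simpa [norm_sub_rev] using hD

open Classical in
theorem sector_norm (F : ZMod m × ZMod m → ℂ) (P Q : ℝ) (hP : ∑ w, ‖F w‖ ^ 2 = P)
    (h0 : ‖F 0‖ ^ 2 = 0) (eA eB : ZMod m × ZMod m ≃ ZMod m × ZMod m)
    (hA : ∀ w, eA w = (w.1, w.2 - w.1)) (hA' : ∀ w, eA.symm w = (w.1, w.1 + w.2))
    (hB : ∀ w, eB w = (w.1 - w.2, w.2)) (hB' : ∀ w, eB.symm w = (w.1 + w.2, w.2))
    (hDA : ∑ w, ‖F w - F (eA w)‖ ^ 2 ≤ Q) (hDB : ∑ w, ‖F w - F (eB w)‖ ^ 2 ≤ Q) :
    P ≤ 8 * (2 * √(P * Q)) + 9 * ∑ w with ¬ Dm w, ‖F w‖ ^ 2 := by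
  have h := sector_all (fun w => ‖F w‖ ^ 2) (fun w => by positivity) h0 (2 * √(P * Q))
    (fun W => by simpa only [hA'] using inv_bound_symm F eA Q P hDA hP W)
    (fun W => by simpa only [hA] using inv_bound F eA Q P hDA hP W)
    (fun W => by simpa only [hB'] using inv_bound_symm F eB Q P hDB hP W)
    (fun W => by simpa only [hB] using inv_bound F eB Q P hDB hP W)
  rw [hP] at h
  exact h

theorem arith_fin (P Q a b : ℝ) (ha : a ^ 2 = P) (hb : b ^ 2 = Q)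
    (h : P ≤ 16 * (a * b) + 9 * (Q / 2)) : P ≤ 265 * Q := by
  subst ha hb
  nlinarith [sq_nonneg (a - 16 * b), sq_nonneg b]

open Classical in
theorem far_bound (F : ZMod m × ZMod m → ℂ) (Q1 Q2 : ℝ)
    (h1 : ∑ w, ‖F w - stdAddChar (-w.1) * F w‖ ^ 2 ≤ Q1)
    (h3 : ∑ w, ‖F w - stdAddChar (-w.2) * F w‖ ^ 2 ≤ Q2) :
    ∑ w with ¬ Dm w, ‖F w‖ ^ 2 ≤ (Q1 + Q2) / 2 := by
  have h5 : ∀ (w : ZMod m × ZMod m) (z : ℂ), ‖F w - z * F w‖ ^ 2 = ‖1 - z‖ ^ 2 * ‖F w‖ ^ 2 := by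
    intro w z
    rw [← mul_pow, ← norm_mul]
    congr 2
    ring
  simp_rw [h5] at h1 h3
  have h6 : ∑ w with ¬ Dm w, 2 * ‖F w‖ ^ 2 ≤
      ∑ w, (‖1 - (stdAddChar (-w.1) : ℂ)‖ ^ 2 * ‖F w‖ ^ 2
        + ‖1 - (stdAddChar (-w.2) : ℂ)‖ ^ 2 * ‖F w‖ ^ 2) := by
    refine le_trans (Finset.sum_le_sum (g := fun w => ‖1 - (stdAddChar (-w.1) : ℂ)‖ ^ 2 * ‖F w‖ ^ 2
        + ‖1 - (stdAddChar (-w.2) : ℂ)‖ ^ 2 * ‖F w‖ ^ 2) ?_)
      (Finset.sum_le_sum_of_subset_of_nonneg (Finset.subset_univ _)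
        (fun w _ _ => by positivity))
    intro w hw
    simp only [mem_filter, mem_univ, true_and, Dm, not_and_or, not_lt] at hw
    rcases hw with h | h
    · have := char_far w.1 h
      have h7 : 0 ≤ ‖1 - (stdAddChar (-w.2) : ℂ)‖ ^ 2 * ‖F w‖ ^ 2 := by positivity
      have h8 : 2 * ‖F w‖ ^ 2 ≤ ‖1 - (stdAddChar (-w.1) : ℂ)‖ ^ 2 * ‖F w‖ ^ 2 := by gcongr
      linarith
    · have := char_far w.2 h
      have h7 : 0 ≤ ‖1 - (stdAddChar (-w.1) : ℂ)‖ ^ 2 * ‖F w‖ ^ 2 := by positivity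
      have h8 : 2 * ‖F w‖ ^ 2 ≤ ‖1 - (stdAddChar (-w.2) : ℂ)‖ ^ 2 * ‖F w‖ ^ 2 := by gcongr
      linarith
  rw [Finset.sum_add_distrib, ← Finset.mul_sum] at h6
  linarith

open Classical in
theorem gap_fourier : ∃ C : ℝ, 0 < C ∧ ∀ (m : ℕ) [NeZero m] (f : ZMod m × ZMod m → ℝ),
    ∑ v, f v = 0 →
    ∑ v, f v ^ 2 ≤ C * (∑ v, (f v - f (v.1 + v.2, v.2)) ^ 2 + ∑ v, (f v - f (v.1, v.1 + v.2)) ^ 2
      + ∑ v, (f v - f (v.1 + 1, v.2)) ^ 2 + ∑ v, (f v - f (v.1, v.2 + 1)) ^ 2) := by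
  refine ⟨265, by norm_num, ?_⟩
  intro m _ f hf
  have hm : (0 : ℝ) < m := by exact_mod_cast NeZero.pos m
  have hm2 : (0 : ℝ) < (m : ℝ) ^ 2 := by positivity
  set fc : ZMod m × ZMod m → ℂ := fun v => (f v : ℂ) with hfc
  set F := hat fc with hF
  set P : ℝ := ∑ w, ‖F w‖ ^ 2 with hP
  have hPf : P = (m : ℝ) ^ 2 * ∑ v, f v ^ 2 := by
    rw [hP, hF, parseval]
    congr 1
    apply Finset.sum_congr rfl
    intro v _
    simp [hfc]
  have henergy : ∀ g : ZMod m × ZMod m → ℝ,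
      ∑ w, ‖F w - hat (fun v => (g v : ℂ)) w‖ ^ 2 = (m : ℝ) ^ 2 * ∑ v, (f v - g v) ^ 2 := by
    intro g
    have h1 : ∀ w, F w - hat (fun v => (g v : ℂ)) w = hat (fun v => fc v - (g v : ℂ)) w :=
      fun w => (hat_sub _ _ _).symm
    simp_rw [h1]
    rw [parseval]
    congr 1
    apply Finset.sum_congr rfl
    intro v _
    rw [hfc, ← Complex.ofReal_sub, Complex.norm_real, Real.norm_eq_abs, sq_abs]
  set ES := ∑ v, (f v - f (v.1 + v.2, v.2)) ^ 2 with hES
  set ET := ∑ v, (f v - f (v.1, v.1 + v.2)) ^ 2 with hET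
  set E1 := ∑ v, (f v - f (v.1 + 1, v.2)) ^ 2 with hE1
  set E2 := ∑ v, (f v - f (v.1, v.2 + 1)) ^ 2 with hE2
  have hES0 : 0 ≤ ES := by rw [hES]; positivity
  have hET0 : 0 ≤ ET := by rw [hET]; positivity
  have hE10 : 0 ≤ E1 := by rw [hE1]; positivity
  have hE20 : 0 ≤ E2 := by rw [hE2]; positivity
  set Q : ℝ := (m : ℝ) ^ 2 * (ES + ET + E1 + E2) with hQ
  have hQ0 : 0 ≤ Q := by rw [hQ]; positivity
  let eA : ZMod m × ZMod m ≃ ZMod m × ZMod m :=
    { toFun := fun w => (w.1, w.2 - w.1)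
      invFun := fun w => (w.1, w.1 + w.2)
      left_inv := fun w => by simp
      right_inv := fun w => by simp }
  let eB : ZMod m × ZMod m ≃ ZMod m × ZMod m :=
    { toFun := fun w => (w.1 - w.2, w.2)
      invFun := fun w => (w.1 + w.2, w.2)
      left_inv := fun w => by simp
      right_inv := fun w => by simp }
  have hDA : ∑ w, ‖F w - F (eA w)‖ ^ 2 ≤ Q := by
    have h1 := henergy (fun v => f (v.1 + v.2, v.2))
    have h2 : ∀ w, hat (fun v => ((f (v.1 + v.2, v.2) : ℝ) : ℂ)) w = F (eA w) := by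
      intro w
      exact hat_S fc w
    simp_rw [h2] at h1
    rw [h1, hQ]
    gcongr
    linarith
  have hDB : ∑ w, ‖F w - F (eB w)‖ ^ 2 ≤ Q := by
    have h1 := henergy (fun v => f (v.1, v.1 + v.2))
    have h2 : ∀ w, hat (fun v => ((f (v.1, v.1 + v.2) : ℝ) : ℂ)) w = F (eB w) := by
      intro w
      exact hat_T fc w
    simp_rw [h2] at h1
    rw [h1, hQ]
    gcongr
    linarith
  have h0 : ‖F 0‖ ^ 2 = 0 := by
    have : F 0 = 0 := by
      rw [hF]
      unfold hat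
      simp only [Prod.fst_zero, Prod.snd_zero, mul_zero, add_zero, AddChar.map_zero_eq_one,
        one_mul, hfc]
      rw [← Complex.ofReal_sum, hf, Complex.ofReal_zero]
    rw [this]; simp
  have hsec := sector_norm F P Q hP.symm h0 eA eB (fun w => rfl) (fun w => rfl) (fun w => rfl)
    (fun w => rfl) hDA hDB
  have hDc : ∑ w with ¬ Dm w, ‖F w‖ ^ 2 ≤ Q / 2 := by
    have h1 := henergy (fun v => f (v.1 + 1, v.2))
    have h2 : ∀ w, hat (fun v => ((f (v.1 + 1, v.2) : ℝ) : ℂ)) w = stdAddChar (-w.1) * F w :=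
      fun w => hat_tau1 fc w
    have h3 := henergy (fun v => f (v.1, v.2 + 1))
    have h4 : ∀ w, hat (fun v => ((f (v.1, v.2 + 1) : ℝ) : ℂ)) w = stdAddChar (-w.2) * F w :=
      fun w => hat_tau2 fc w
    simp_rw [h2] at h1
    simp_rw [h4] at h3
    refine (far_bound F _ _ h1.le h3.le).trans ?_
    rw [hQ]
    nlinarith [mul_nonneg hm2.le hES0, mul_nonneg hm2.le hET0]
  have hP0 : 0 ≤ P := Finset.sum_nonneg (fun w _ => sq_nonneg _)
  clear_value P Q F
  have hmain : P ≤ 16 * √(P * Q) + 9 * (Q / 2) := by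
    linarith
  have hsq : √(P * Q) = √P * √Q := Real.sqrt_mul hP0 _
  have hPs := Real.sq_sqrt hP0
  have hQs := Real.sq_sqrt hQ0
  have hfin : P ≤ 265 * Q := by
    rw [hsq] at hmain
    exact arith_fin P Q (√P) (√Q) hPs hQs hmain
  rw [hPf, hQ] at hfin
  have : (m : ℝ) ^ 2 * ∑ v, f v ^ 2 ≤ (m : ℝ) ^ 2 * (265 * (ES + ET + E1 + E2)) := by
    calc _ ≤ _ := hfin
      _ = _ := by ring
  exact le_of_mul_le_mul_left this hm2

end P090H22
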