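import Vale.Agent.Lib.P090H22.Words

/-!
# P090: the weighted flow functions at a level
-/

open Finset

namespace P090H22

variable {A : Type} [DecidableEq A] [Fintype A] {X Y : Type}

/-- Truncated linear decay: `hs s m = max 0 (1 - m / s)`. -/
noncomputable def hs (s m : ℕ) : ℝ := max 0 (1 - (m : ℝ) / s)

theorem hs_zero (s : ℕ) : hs s 0 = 1 := by simp [hs]

theorem hs_nonneg (s m : ℕ) : 0 ≤ hs s m := le_max_left _ _

theorem hs_le_one (s m : ℕ) : hs s m ≤ 1 := by
  unfold hs
  apply max_le zero_le_one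
  have : (0 : ℝ) ≤ (m : ℝ) / s := by positivity
  linarith

theorem hs_eq_zero {s m : ℕ} (hs0 : 0 < s) (h : s ≤ m) : hs s m = 0 := by
  unfold hs
  apply max_eq_left
  have : (1 : ℝ) ≤ (m : ℝ) / s := by
    rw [le_div_iff₀ (by exact_mod_cast hs0), one_mul]
    exact_mod_cast h
  linarith

/-- `hs` is `1/s`-Lipschitz for one-step changes. -/
theorem hs_step {s m m' : ℕ} (h1 : m ≤ m' + 1) (h2 : m' ≤ m + 1) :
    |hs s m - hs s m'| ≤ 1 / (s : ℝ) := by
  have h3 : (m : ℝ) ≤ m' + 1 := by exact_mod_cast h1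
  have h4 : (m' : ℝ) ≤ m + 1 := by exact_mod_cast h2
  have h5 : hs s m - hs s m' = max (1 - (m : ℝ) / s) 0 - max (1 - (m' : ℝ) / s) 0 := by
    unfold hs
    rw [max_comm, max_comm 0 (1 - (m' : ℝ) / s)]
  rw [h5]
  refine (abs_max_sub_max_le_abs _ _ _).trans ?_
  have h6 : (1 - (m : ℝ) / s) - (1 - (m' : ℝ) / s) = ((m' : ℝ) - m) / s := by ring
  rw [h6, abs_div, abs_of_nonneg (Nat.cast_nonneg s : (0 : ℝ) ≤ s)]
  apply div_le_div_of_nonneg_right _ (Nat.cast_nonneg s)
  rw [abs_le]
  constructor <;> linarith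

/-- The group of level `s`. -/
abbrev Lam (A : Type) [DecidableEq A] (s : ℕ) : Type := Equiv.Perm (Red A (s + 1))

open Classical in
/-- The bump function: `x` at position `p`, `z` at position `p'`. -/
noncomputable def bump (s : ℕ) (p p' : Lam A s) : ℝ :=
  if Good (s + 1) s (p⁻¹ * p') then hs s (wd (p⁻¹ * p')).length else 0

open Classical in
/-- The weighted flow out of `x = (p, y)` along the letter `a`, seen from `z = (p', z')`. -/
noncomputable def jfun (PX : PAct A X) (PY : PAct A Y) (φ : X → Y → A → ℝ) (s : ℕ)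
    (p : Lam A s) (y : X) (a : A) (p' : Lam A s) (z : Y) : ℝ :=
  if Good (s + 1) s (p⁻¹ * p') then
    hs s (max (wd (p⁻¹ * p')).length (lmul a (wd (p⁻¹ * p'))).length) *
      flowF PX PY φ (wd (p⁻¹ * p')) y z a
  else 0

variable {PX : PAct A X} {PY : PAct A Y} {φ : X → Y → A → ℝ} {K : ℝ} {s : ℕ}

theorem bump_self (p : Lam A s) : bump s p p = 1 := by
  unfold bump
  rw [inv_mul_cancel]
  have h1 : wd (1 : Lam A s) = [] := rfl
  have h2 : Good (s + 1) s (1 : Lam A s) := ⟨Nat.zero_le _, rfl⟩
  rw [if_pos h2, h1]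
  exact hs_zero s

theorem bump_nonneg (p p' : Lam A s) : 0 ≤ bump s p p' := by
  unfold bump
  split_ifs
  · exact hs_nonneg _ _
  · exact le_rfl

theorem bump_le_one (p p' : Lam A s) : bump s p p' ≤ 1 := by
  unfold bump
  split_ifs
  · exact hs_le_one _ _
  · exact zero_le_one

theorem inv_letterPerm (N : ℕ) (a : A) : (letterPerm N a)⁻¹ = letterPerm N a :=
  inv_eq_of_mul_eq_one_left (letterPerm_mul_self N a)

open Classical in
/-- The value of the bump as a function of the relative position. -/
noncomputable def bumpV (s : ℕ) (g : Lam A s) : ℝ :=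
  if Good (s + 1) s g then hs s (wd g).length else 0

theorem bump_eq (p p' : Lam A s) : bump s p p' = bumpV s (p⁻¹ * p') := rfl

theorem bumpV_step (hs0 : 0 < s) (g : Lam A s) (b : A) (hg : Good (s + 1) s g) :
    |bumpV s g - bumpV s (g * letterPerm (s + 1) b)| ≤ 1 / (s : ℝ) := by
  have hpos : (0 : ℝ) ≤ 1 / (s : ℝ) := by positivity
  rcases good_mul_right (s + 1) s le_rfl g b hg with ⟨w₀, h1, h2, h3⟩ | ⟨h1, h2⟩
  · unfold bumpV
    rw [if_pos hg, if_pos h2, h1, h3]
    apply hs_step <;> simp only [List.length_append, List.length_singleton] <;> omega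
  · by_cases h3 : Good (s + 1) s (g * letterPerm (s + 1) b)
    · unfold bumpV
      rw [if_pos hg, if_pos h3, h1]
      apply hs_step <;> simp <;> omega
    · have h4 : s ≤ (wd g).length := by
        by_contra hcon
        exact h3 (h2.2 (by omega))
      unfold bumpV
      rw [if_pos hg, if_neg h3, hs_eq_zero hs0 h4]
      simpa using hpos

theorem bump_step (hs0 : 0 < s) (p p' : Lam A s) (b : A) :
    |bump s p p' - bump s p (p' * letterPerm (s + 1) b)| ≤ 1 / (s : ℝ) := by
  have hpos : (0 : ℝ) ≤ 1 / (s : ℝ) := by positivity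
  rw [bump_eq, bump_eq, ← mul_assoc]
  set g := p⁻¹ * p' with hg
  by_cases h1 : Good (s + 1) s g
  · exact bumpV_step hs0 g b h1
  · by_cases h2 : Good (s + 1) s (g * letterPerm (s + 1) b)
    · have h3 := bumpV_step hs0 _ b h2
      rw [mul_assoc g, letterPerm_mul_self, mul_one] at h3
      rw [abs_sub_comm]
      exact h3
    · unfold bumpV
      rw [if_neg h1, if_neg h2]
      simpa using hpos

open Classical in
/-- The value of `jfun` as a function of the relative position. -/
noncomputable def jV (PX : PAct A X) (PY : PAct A Y) (φ : X → Y → A → ℝ) (s : ℕ)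
    (y : X) (a : A) (g : Lam A s) (z : Y) : ℝ :=
  if Good (s + 1) s g then
    hs s (max (wd g).length (lmul a (wd g)).length) * flowF PX PY φ (wd g) y z a
  else 0

theorem jfun_eq (p : Lam A s) (y : X) (a : A) (p' : Lam A s) (z : Y) :
    jfun PX PY φ s p y a p' z = jV PX PY φ s y a (p⁻¹ * p') z := rfl

theorem jfun_bound (h : GoodFlow PX PY φ K) (p : Lam A s) (y : X) (a : A) (p' : Lam A s) (z : Y) :
    |jfun PX PY φ s p y a p' z| ≤ K := by
  have hK : 0 ≤ K := zero_le_one.trans h.one_le
  unfold jfun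
  split_ifs
  · rw [abs_mul, abs_of_nonneg (hs_nonneg _ _)]
    calc _ ≤ 1 * K := mul_le_mul (hs_le_one _ _) (flowF_bound h _ _ _ _) (abs_nonneg _)
          zero_le_one
      _ = K := one_mul K
  · simpa using hK

theorem jfun_zero (h : GoodFlow PX PY φ K) (p : Lam A s) (y : X) (a : A) (p' : Lam A s) (z : Y)
    (ha : PX.act a y = none) : jfun PX PY φ s p y a p' z = 0 := by
  unfold jfun
  split_ifs
  · rw [flowF_zero h _ _ _ _ ha, mul_zero]
  · rfl

theorem jV_eq_zero (hs0 : 0 < s) (y : X) (a : A) (g : Lam A s) (z : Y)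
    (hg : ¬ (lmul a (wd g)).length < s) : jV PX PY φ s y a g z = 0 := by
  unfold jV
  split_ifs
  · rw [hs_eq_zero hs0 (le_trans (not_lt.1 hg) (le_max_right _ _)), zero_mul]
  · rfl

theorem jfun_anti (h : GoodFlow PX PY φ K) (hs0 : 0 < s) (p : Lam A s) (y y' : X) (a : A)
    (p' : Lam A s) (z : Y) (ha : PX.act a y = some y') :
    jfun PX PY φ s (p * letterPerm (s + 1) a) y' a p' z = - jfun PX PY φ s p y a p' z := by
  rw [jfun_eq, jfun_eq, mul_inv_rev, inv_letterPerm, mul_assoc]
  set g := p⁻¹ * p' with hg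
  by_cases h1 : Good (s + 1) s g
  · obtain ⟨h2, h3⟩ := good_mul_left (s + 1) s le_rfl g a h1
    by_cases h4 : Good (s + 1) s (letterPerm (s + 1) a * g)
    · unfold jV
      rw [if_pos h1, if_pos h4, h2, lmul_lmul a (wd g) (wd_isChain g), max_comm,
        flowF_anti h (wd g) (wd_isChain g) y y' z a ha]
      ring
    · have h5 : ¬ (lmul a (wd g)).length < s := fun hlt => h4 (h3.2 hlt.le)
      rw [jV_eq_zero hs0 y a g z h5]
      unfold jV
      rw [if_neg h4, neg_zero]
  · have h6 : jV PX PY φ s y a g z = 0 := by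
      unfold jV
      rw [if_neg h1]
    rw [h6, neg_zero]
    by_cases h4 : Good (s + 1) s (letterPerm (s + 1) a * g)
    · obtain ⟨h2, h3⟩ := good_mul_left (s + 1) s le_rfl _ a h4
      rw [← mul_assoc, letterPerm_mul_self, one_mul] at h2 h3
      exact jV_eq_zero hs0 y' a _ z (fun hlt => h1 (h3.2 hlt.le))
    · unfold jV
      rw [if_neg h4]

theorem mul_diff_le {x x' f K t : ℝ} (h1 : |x - x'| ≤ t) (h2 : |f| ≤ K) :
    |x * f - x' * f| ≤ t * K := by
  rw [← sub_mul, abs_mul]
  exact mul_le_mul h1 h2 (abs_nonneg _) ((abs_nonneg _).trans h1)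

theorem jV_step (h : GoodFlow PX PY φ K) (hs0 : 0 < s) (y : X) (a : A) (g : Lam A s) (z z' : Y)
    (b : A) (hb : PY.act b z = some z') (hg : Good (s + 1) s g) :
    |jV PX PY φ s y a g z - jV PX PY φ s y a (g * letterPerm (s + 1) b) z'| ≤ K / s := by
  have hK : 0 ≤ K := zero_le_one.trans h.one_le
  have hpos : (0 : ℝ) ≤ K / s := by positivity
  have hKs : K / s = 1 / (s : ℝ) * K := by ring
  rcases good_mul_right (s + 1) s le_rfl g b hg with ⟨w₀, h1, h2, h3⟩ | ⟨h1, h2⟩
  · have h4 := flowF_inv h w₀ y z' z b (PY.invol b z z' hb)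
    obtain ⟨h5, h6⟩ := lmul_append_length a b w₀
    unfold jV
    rw [if_pos hg, if_pos h2, h1, h3, h4, hKs]
    apply mul_diff_le _ (flowF_bound h _ _ _ _)
    apply hs_step
    · simp only [List.length_append, List.length_singleton]
      omega
    · simp only [List.length_append, List.length_singleton]
      omega
  · have h4 := flowF_inv h (wd g) y z z' b hb
    obtain ⟨h5, h6⟩ := lmul_append_length a b (wd g)
    by_cases h3 : Good (s + 1) s (g * letterPerm (s + 1) b)
    · unfold jV
      rw [if_pos hg, if_pos h3, h1, h4, hKs]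
      apply mul_diff_le _ (flowF_bound h _ _ _ _)
      apply hs_step
      · simp only [List.length_append, List.length_singleton]
        omega
      · simp only [List.length_append, List.length_singleton]
        omega
    · have h7 : s ≤ (wd g).length := by
        by_contra hcon
        exact h3 (h2.2 (by omega))
      unfold jV
      rw [if_pos hg, if_neg h3, hs_eq_zero hs0 (h7.trans (le_max_left _ _)), zero_mul]
      simpa using hpos

theorem jfun_step (h : GoodFlow PX PY φ K) (hs0 : 0 < s) (p : Lam A s) (y : X) (a : A)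
    (p' : Lam A s) (z z' : Y) (b : A) (hb : PY.act b z = some z') :
    |jfun PX PY φ s p y a p' z - jfun PX PY φ s p y a (p' * letterPerm (s + 1) b) z'|
      ≤ K / s := by
  have hK : 0 ≤ K := zero_le_one.trans h.one_le
  have hpos : (0 : ℝ) ≤ K / s := by positivity
  rw [jfun_eq, jfun_eq, ← mul_assoc]
  set g := p⁻¹ * p' with hg
  by_cases h1 : Good (s + 1) s g
  · exact jV_step h hs0 y a g z z' b hb h1
  · by_cases h2 : Good (s + 1) s (g * letterPerm (s + 1) b)
    · have h3 := jV_step h hs0 y a _ z' z b (PY.invol b z z' hb) h2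
      rw [mul_assoc g, letterPerm_mul_self, mul_one] at h3
      rw [abs_sub_comm]
      exact h3
    · unfold jV
      rw [if_neg h1, if_neg h2]
      simpa using hpos

theorem jfun_div (h : GoodFlow PX PY φ K) (hs0 : 0 < s) (p : Lam A s) (y : X)
    (p' : Lam A s) (z : Y) :
    |bump s p p' - ∑ a, jfun PX PY φ s p y a p' z| ≤ Fintype.card A * K / s := by
  have hK : 0 ≤ K := zero_le_one.trans h.one_le
  have hpos : (0 : ℝ) ≤ Fintype.card A * K / s := by positivity
  unfold bump jfun
  set g := p⁻¹ * p' with hg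
  by_cases h1 : Good (s + 1) s g
  · simp only [if_pos h1]
    have h2 : hs s (wd g).length -
        ∑ a, hs s (max (wd g).length (lmul a (wd g)).length) * flowF PX PY φ (wd g) y z a =
        ∑ a, (hs s (wd g).length * flowF PX PY φ (wd g) y z a -
          hs s (max (wd g).length (lmul a (wd g)).length) * flowF PX PY φ (wd g) y z a) := by
      rw [Finset.sum_sub_distrib, ← Finset.mul_sum, flowF_sum h, mul_one]
    rw [h2]
    refine (Finset.abs_sum_le_sum_abs _ _).trans ?_
    have h3 : ∀ a ∈ (Finset.univ : Finset A),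
        |hs s (wd g).length * flowF PX PY φ (wd g) y z a -
          hs s (max (wd g).length (lmul a (wd g)).length) * flowF PX PY φ (wd g) y z a| ≤
          1 / (s : ℝ) * K := by
      intro a _
      apply mul_diff_le _ (flowF_bound h _ _ _ _)
      rcases lmul_length a (wd g) with h4 | h4 <;> apply hs_step <;> omega
    refine (Finset.sum_le_sum h3).trans ?_
    rw [Finset.sum_const, Finset.card_univ, nsmul_eq_mul]
    apply le_of_eq
    ring
  · simp only [if_neg h1]
    simpa using hpos

end P090H22
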