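import Mathlib

/-!
# P090: Lipschitz-free spaces and the bounded approximation property

Definitions used in the statement of the result.
-/

namespace P090H22

/-- Real Lipschitz functions on `M` vanishing at the base point `o`, as a linear subspace of all
functions. -/
def lip0Submodule (M : Type) [MetricSpace M] (o : M) : Submodule ℝ (M → ℝ) where
  carrier := {f | f o = 0 ∧ ∃ K : ℝ, ∀ x y, |f x - f y| ≤ K * dist x y}
  add_mem' := by
    rintro f g ⟨hf, K, hK⟩ ⟨hg, L, hL⟩
    refine ⟨by simp [hf, hg], K + L, fun x y => ?_⟩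
    have h1 := hK x y
    have h2 := hL x y
    calc |(f + g) x - (f + g) y| = |(f x - f y) + (g x - g y)| := by
          simp only [Pi.add_apply]; ring_nf
      _ ≤ |f x - f y| + |g x - g y| := abs_add_le _ _
      _ ≤ (K + L) * dist x y := by linarith
  zero_mem' := ⟨rfl, 0, fun x y => by simp⟩
  smul_mem' := by
    rintro c f ⟨hf, K, hK⟩
    refine ⟨by simp [hf], |c| * K, fun x y => ?_⟩
    calc |(c • f) x - (c • f) y| = |c| * |f x - f y| := by
          rw [← abs_mul]; simp only [Pi.smul_apply, smul_eq_mul]; ring_nf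
      _ ≤ |c| * (K * dist x y) := by gcongr; exact hK x y
      _ = |c| * K * dist x y := by ring

/-- The space `Lip₀(M)` of real Lipschitz functions on `M` vanishing at the base point `o`. -/
def Lip0 (M : Type) [MetricSpace M] (o : M) : Type := lip0Submodule M o

variable {M : Type} [MetricSpace M] {o : M}

noncomputable instance : AddCommGroup (Lip0 M o) := (lip0Submodule M o).addCommGroup

noncomputable instance : Module ℝ (Lip0 M o) := (lip0Submodule M o).module

instance : CoeFun (Lip0 M o) (fun _ => M → ℝ) := ⟨fun f => f.1⟩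

@[ext] theorem Lip0.ext {f g : Lip0 M o} (h : ∀ x, f x = g x) : f = g :=
  Subtype.ext (funext h)

theorem Lip0.add_apply (f g : Lip0 M o) (x : M) : (f + g) x = f x + g x := rfl
theorem Lip0.sub_apply (f g : Lip0 M o) (x : M) : (f - g) x = f x - g x := rfl
theorem Lip0.neg_apply (f : Lip0 M o) (x : M) : (-f) x = - f x := rfl
theorem Lip0.zero_apply (x : M) : (0 : Lip0 M o) x = 0 := rfl
theorem Lip0.smul_apply (c : ℝ) (f : Lip0 M o) (x : M) : (c • f) x = c * f x := rfl
theorem Lip0.base (f : Lip0 M o) : f o = 0 := f.2.1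

theorem Lip0.sum_apply {ι : Type*} (s : Finset ι) (f : ι → Lip0 M o) (x : M) :
    (∑ i ∈ s, f i) x = ∑ i ∈ s, f i x := by
  classical
  induction s using Finset.induction_on with
  | empty => simp [Lip0.zero_apply]
  | insert a s ha ih => rw [Finset.sum_insert ha, Finset.sum_insert ha, Lip0.add_apply, ih]

/-- The Lipschitz constant, as the norm of `Lip0 M o`. -/
noncomputable instance : Norm (Lip0 M o) :=
  ⟨fun f => sInf {K : ℝ | 0 ≤ K ∧ ∀ x y, |f x - f y| ≤ K * dist x y}⟩

theorem Lip0.norm_def (f : Lip0 M o) :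
    ‖f‖ = sInf {K : ℝ | 0 ≤ K ∧ ∀ x y, |f x - f y| ≤ K * dist x y} := rfl

theorem Lip0.set_nonempty (f : Lip0 M o) :
    {K : ℝ | 0 ≤ K ∧ ∀ x y, |f x - f y| ≤ K * dist x y}.Nonempty := by
  obtain ⟨-, K, hK⟩ := f.2
  refine ⟨|K|, abs_nonneg _, fun x y => (hK x y).trans ?_⟩
  have := le_abs_self K
  gcongr

theorem Lip0.set_bddBelow (f : Lip0 M o) :
    BddBelow {K : ℝ | 0 ≤ K ∧ ∀ x y, |f x - f y| ≤ K * dist x y} :=
  ⟨0, fun _ h => h.1⟩

theorem Lip0.norm_le (f : Lip0 M o) {K : ℝ} (hK : 0 ≤ K)
    (h : ∀ x y, |f x - f y| ≤ K * dist x y) : ‖f‖ ≤ K :=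
  csInf_le f.set_bddBelow ⟨hK, h⟩

theorem Lip0.apply_sub_le (f : Lip0 M o) (x y : M) : |f x - f y| ≤ ‖f‖ * dist x y := by
  rcases eq_or_ne x y with rfl | hxy
  · simp
  · have hd : 0 < dist x y := dist_pos.2 hxy
    rw [← div_le_iff₀ hd]
    refine le_csInf f.set_nonempty (fun K hK => ?_)
    rw [div_le_iff₀ hd]
    exact hK.2 x y

theorem Lip0.norm_nonneg' (f : Lip0 M o) : 0 ≤ ‖f‖ :=
  Real.sInf_nonneg (fun _ h => h.1)

theorem Lip0.core : NormedSpace.Core ℝ (Lip0 M o) where
  norm_nonneg f := f.norm_nonneg'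
  norm_smul c f := by
    apply le_antisymm
    · refine Lip0.norm_le _ (mul_nonneg (norm_nonneg _) f.norm_nonneg') (fun x y => ?_)
      rw [Lip0.smul_apply, Lip0.smul_apply, ← mul_sub, abs_mul, mul_assoc, Real.norm_eq_abs]
      exact mul_le_mul_of_nonneg_left (f.apply_sub_le x y) (abs_nonneg _)
    · rcases eq_or_ne c 0 with rfl | hc
      · simp only [norm_zero, zero_mul]
        exact Lip0.norm_nonneg' _
      · have hc' : 0 < ‖c‖ := norm_pos_iff.2 hc
        rw [← le_div_iff₀' hc']
        refine Lip0.norm_le _ (div_nonneg (Lip0.norm_nonneg' _) hc'.le) (fun x y => ?_)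
        have h := (c • f).apply_sub_le x y
        rw [Lip0.smul_apply, Lip0.smul_apply, ← mul_sub, abs_mul] at h
        rw [div_mul_eq_mul_div, le_div_iff₀ hc', mul_comm, Real.norm_eq_abs]
        exact h
  norm_triangle f g := by
    refine Lip0.norm_le _ (add_nonneg f.norm_nonneg' g.norm_nonneg') (fun x y => ?_)
    rw [Lip0.add_apply, Lip0.add_apply]
    calc |f x + g x - (f y + g y)| = |(f x - f y) + (g x - g y)| := by ring_nf
      _ ≤ |f x - f y| + |g x - g y| := abs_add_le _ _
      _ ≤ ‖f‖ * dist x y + ‖g‖ * dist x y := add_le_add (f.apply_sub_le x y) (g.apply_sub_le x y)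
      _ = (‖f‖ + ‖g‖) * dist x y := by ring
  norm_eq_zero_iff f := by
    constructor
    · intro h
      ext x
      have := f.apply_sub_le x o
      rw [h, zero_mul, f.base, sub_zero] at this
      rw [Lip0.zero_apply]
      exact abs_eq_zero.1 (le_antisymm this (abs_nonneg _))
    · rintro rfl
      apply le_antisymm _ (Lip0.norm_nonneg' _)
      refine Lip0.norm_le _ le_rfl (fun x y => ?_)
      simp [Lip0.zero_apply]

noncomputable instance : NormedAddCommGroup (Lip0 M o) := NormedAddCommGroup.ofCore Lip0.core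

noncomputable instance : NormedSpace ℝ (Lip0 M o) := NormedSpace.ofCore Lip0.core

/-- Evaluation at `x`, an element of the dual of `Lip0 M o`. -/
noncomputable def evalAt (o x : M) : Lip0 M o →L[ℝ] ℝ :=
  LinearMap.mkContinuous
    { toFun := fun f => f x
      map_add' := fun _ _ => rfl
      map_smul' := fun _ _ => rfl } (dist x o) (by
        intro f
        have := f.apply_sub_le x o
        rw [f.base, sub_zero, mul_comm] at this
        exact this)

@[simp] theorem evalAt_apply (x : M) (f : Lip0 M o) : evalAt o x f = f x := rfl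

/-- The closed linear span of the evaluations in the dual of `Lip0 M o`. -/
noncomputable def lipFreeSubmodule (M : Type) [MetricSpace M] (o : M) :
    Submodule ℝ (Lip0 M o →L[ℝ] ℝ) :=
  (Submodule.span ℝ (Set.range (evalAt o))).topologicalClosure

/-- The Lipschitz-free space of `(M, o)`: the closed linear span of the evaluations in the dual of
`Lip0 M o`, with the norm of the dual. -/
def LipFree (M : Type) [MetricSpace M] (o : M) : Type := lipFreeSubmodule M o

noncomputable instance : NormedAddCommGroup (LipFree M o) :=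
  (lipFreeSubmodule M o).normedAddCommGroup

noncomputable instance : NormedSpace ℝ (LipFree M o) :=
  Submodule.normedSpace (lipFreeSubmodule M o)

/-- The inclusion of the Lipschitz-free space in the dual of `Lip0 M o`, used as a pairing:
`pair v f` is the value of `v` at `f`. -/
noncomputable def pair (v : LipFree M o) (f : Lip0 M o) : ℝ := v.1 f

theorem pair_add_left (u v : LipFree M o) (f : Lip0 M o) :
    pair (u + v) f = pair u f + pair v f := rfl

theorem pair_sub_left (u v : LipFree M o) (f : Lip0 M o) :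
    pair (u - v) f = pair u f - pair v f := rfl

theorem pair_smul_left (c : ℝ) (v : LipFree M o) (f : Lip0 M o) :
    pair (c • v) f = c * pair v f := rfl

theorem pair_zero_left (f : Lip0 M o) : pair (0 : LipFree M o) f = 0 := rfl

theorem pair_add (v : LipFree M o) (f g : Lip0 M o) : pair v (f + g) = pair v f + pair v g :=
  map_add v.1 f g

theorem pair_neg (v : LipFree M o) (f : Lip0 M o) : pair v (-f) = - pair v f :=
  map_neg v.1 f

theorem pair_sum (v : LipFree M o) {ι : Type*} (s : Finset ι) (f : ι → Lip0 M o) :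
    pair v (∑ i ∈ s, f i) = ∑ i ∈ s, pair v (f i) :=
  map_sum v.1 f s

/-- The evaluation at `x` as an element of the Lipschitz-free space. -/
noncomputable def del (o x : M) : LipFree M o :=
  ⟨evalAt o x, Submodule.le_topologicalClosure _ (Submodule.subset_span ⟨x, rfl⟩)⟩

@[simp] theorem pair_del (x : M) (f : Lip0 M o) : pair (del o x) f = f x := rfl

theorem LipFree.norm_def (v : LipFree M o) : ‖v‖ = ‖v.1‖ := rfl

theorem norm_del_sub_le (x y : M) : ‖del o x - del o y‖ ≤ dist x y := by
  rw [LipFree.norm_def]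
  refine ContinuousLinearMap.opNorm_le_bound _ dist_nonneg (fun f => ?_)
  have : ((del o x - del o y : LipFree M o).1) f = f x - f y := rfl
  rw [this, Real.norm_eq_abs, mul_comm]
  exact f.apply_sub_le x y

theorem norm_del_le (x : M) : ‖del o x‖ ≤ dist x o := by
  rw [LipFree.norm_def]
  refine ContinuousLinearMap.opNorm_le_bound _ dist_nonneg (fun f => ?_)
  have h : ((del o x : LipFree M o).1) f = f x := rfl
  rw [h, Real.norm_eq_abs, mul_comm]
  have := f.apply_sub_le x o
  rwa [f.base, sub_zero] at this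

theorem pairing_le (v : LipFree M o) (f : Lip0 M o) : |pair v f| ≤ ‖v‖ * ‖f‖ := by
  rw [LipFree.norm_def, ← Real.norm_eq_abs]
  exact v.1.le_opNorm f

/-- Density: a closed property (closed subspace) holding for all evaluations holds everywhere. -/
theorem LipFree.induction {p : LipFree M o → Prop} (hd : ∀ x, p (del o x)) (h0 : p 0)
    (hadd : ∀ u v, p u → p v → p (u + v)) (hsmul : ∀ (c : ℝ) u, p u → p (c • u))
    (hcl : ∀ u, (∀ ε > 0, ∃ v, p v ∧ ‖u - v‖ < ε) → p u) : ∀ u, p u := by
  intro u
  apply hcl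
  intro ε hε
  have hu : u.1 ∈ closure
      ((Submodule.span ℝ (Set.range (evalAt o)) : Submodule ℝ (Lip0 M o →L[ℝ] ℝ)) :
        Set (Lip0 M o →L[ℝ] ℝ)) := by
    have := u.2
    unfold lipFreeSubmodule at this
    rwa [← SetLike.mem_coe, Submodule.topologicalClosure_coe] at this
  obtain ⟨w, hw, hwe⟩ := Metric.mem_closure_iff.1 hu ε hε
  have key : ∀ w ∈ Submodule.span ℝ (Set.range (evalAt o)),
      ∃ hw : w ∈ lipFreeSubmodule M o, p ⟨w, hw⟩ := by
    intro w hw
    induction hw using Submodule.span_induction with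
    | mem x hx =>
      obtain ⟨z, rfl⟩ := hx
      exact ⟨(del o z).2, hd z⟩
    | zero => exact ⟨zero_mem _, h0⟩
    | add x y _ _ hx hy =>
      obtain ⟨hx1, hx2⟩ := hx
      obtain ⟨hy1, hy2⟩ := hy
      exact ⟨add_mem hx1 hy1, hadd _ _ hx2 hy2⟩
    | smul c x _ hx =>
      obtain ⟨hx1, hx2⟩ := hx
      exact ⟨Submodule.smul_mem _ c hx1, hsmul c _ hx2⟩
  obtain ⟨hw1, hw2⟩ := key w hw
  refine ⟨⟨w, hw1⟩, hw2, ?_⟩
  rw [dist_eq_norm] at hwe
  exact hwe

/-- The `lam`-bounded approximation property of a real Banach space: for every compact `C` and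
`ε > 0` there is a bounded finite-rank operator `T` of norm at most `lam` with
`‖T u - u‖ < ε` for `u ∈ C`. -/
def LamBAP (E : Type*) [NormedAddCommGroup E] [NormedSpace ℝ E] (lam : ℝ) : Prop :=
  ∀ C : Set E, IsCompact C → ∀ ε : ℝ, 0 < ε →
    ∃ T : E →L[ℝ] E, FiniteDimensional ℝ (LinearMap.range T.toLinearMap) ∧ ‖T‖ ≤ lam ∧
      ∀ u ∈ C, ‖T u - u‖ < ε

/-- The bounded approximation property. -/
def BAP (E : Type*) [NormedAddCommGroup E] [NormedSpace ℝ E] : Prop :=
  ∃ lam : ℝ, 1 ≤ lam ∧ LamBAP E lam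

/-- Uniformly discrete metric spaces. -/
def UniformlyDiscrete (M : Type) [MetricSpace M] : Prop :=
  ∃ c : ℝ, 0 < c ∧ ∀ x y : M, x ≠ y → c ≤ dist x y

end P090H22
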