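import Vale.Agent.Lib.P090H22.LipFree

/-!
# P090: a finite-rank operator does not see far away pieces
-/

open Filter Topology

namespace P090H22

variable {M : Type} [MetricSpace M] {o : M}

/-- For a fixed `v`, pairing with functions supported on the `n`-th piece tends to zero,
uniformly over functions of norm at most `C`. -/
theorem tail_vec (Mn : ℕ → Set M) (hfin : ∀ z, ∀ᶠ n in atTop, z ∉ Mn n) (C : ℝ)
    (v : LipFree M o) : ∀ η : ℝ, 0 < η → ∀ᶠ n in atTop, ∀ f : Lip0 M o, ‖f‖ ≤ C →
      (∀ z, z ∉ Mn n → f z = 0) → |pair v f| ≤ η := by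
  refine LipFree.induction (p := fun v => ∀ η : ℝ, 0 < η → ∀ᶠ n in atTop, ∀ f : Lip0 M o,
    ‖f‖ ≤ C → (∀ z, z ∉ Mn n → f z = 0) → |pair v f| ≤ η) ?_ ?_ ?_ ?_ ?_ v
  · intro x η hη
    filter_upwards [hfin x] with n hn f _ hf
    rw [pair_del, hf x hn, abs_zero]
    exact hη.le
  · intro η hη
    filter_upwards with n f _ _
    rw [pair_zero_left, abs_zero]
    exact hη.le
  · intro u v hu hv η hη
    filter_upwards [hu (η / 2) (by linarith), hv (η / 2) (by linarith)] with n h1 h2 f hf1 hf2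
    rw [pair_add_left]
    have h3 := h1 f hf1 hf2
    have h4 := h2 f hf1 hf2
    have h5 := abs_add_le (pair u f) (pair v f)
    linarith
  · intro c u hu η hη
    have hc : 0 < |c| + 1 := by positivity
    filter_upwards [hu (η / (|c| + 1)) (by positivity)] with n h1 f hf1 hf2
    rw [pair_smul_left, abs_mul]
    have h3 := h1 f hf1 hf2
    have h4 : (|c| + 1) * (η / (|c| + 1)) = η := by field_simp
    have h5 : 0 ≤ η / (|c| + 1) := by positivity
    calc |c| * |pair u f| ≤ |c| * (η / (|c| + 1)) := by gcongr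
      _ ≤ (|c| + 1) * (η / (|c| + 1)) := by nlinarith
      _ = η := h4
  · intro u hu η hη
    have hC : 0 < |C| + 1 := by positivity
    obtain ⟨v, hv, huv⟩ := hu (η / (2 * (|C| + 1))) (by positivity)
    filter_upwards [hv (η / 2) (by linarith)] with n h1 f hf1 hf2
    have h3 := h1 f hf1 hf2
    have h4 := pairing_le (u - v) f
    have h5 : pair u f = pair (u - v) f + pair v f := by
      rw [pair_sub_left]
      ring
    have h6 : ‖u - v‖ * ‖f‖ ≤ η / (2 * (|C| + 1)) * (|C| + 1) := by
      have h7 : ‖f‖ ≤ |C| + 1 := by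
        have := le_abs_self C
        linarith
      exact mul_le_mul huv.le h7 (norm_nonneg _) (by positivity)
    have h8 : η / (2 * (|C| + 1)) * (|C| + 1) = η / 2 := by field_simp
    rw [h5]
    have h9 := abs_add_le (pair (u - v) f) (pair v f)
    linarith

/-- Uniform version for a finite-rank operator on a ball (use a basis of the range, or total
boundedness of the image of a ball). -/
theorem tail_small (T : LipFree M o →L[ℝ] LipFree M o)
    (hT : FiniteDimensional ℝ (LinearMap.range T.toLinearMap)) (Mn : ℕ → Set M)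
    (hfin : ∀ z, ∀ᶠ n in atTop, z ∉ Mn n) (C R η : ℝ) (hη : 0 < η) :
    ∀ᶠ n in atTop, ∀ u : LipFree M o, ‖u‖ ≤ R → ∀ f : Lip0 M o, ‖f‖ ≤ C →
      (∀ z, z ∉ Mn n → f z = 0) → |pair (T u) f| ≤ η := by
  have hC : 0 < |C| + 1 := by positivity
  have hprop : ProperSpace (LinearMap.range T.toLinearMap) := FiniteDimensional.proper ℝ _
  have hcomp : IsCompact (Metric.closedBall (0 : LinearMap.range T.toLinearMap) (‖T‖ * R)) :=
    isCompact_closedBall _ _
  have hε : 0 < η / (2 * (|C| + 1)) := by positivity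
  obtain ⟨t, -, htfin, hcov⟩ := hcomp.finite_cover_balls hε
  have hev : ∀ᶠ n in atTop, ∀ w ∈ t, ∀ f : Lip0 M o, ‖f‖ ≤ C →
      (∀ z, z ∉ Mn n → f z = 0) → |pair (w : LipFree M o) f| ≤ η / 2 :=
    (eventually_all_finite htfin).2 fun w _ => tail_vec Mn hfin C _ (η / 2) (by linarith)
  filter_upwards [hev] with n hn u hu f hf1 hf2
  have hmem : (⟨T u, ⟨u, rfl⟩⟩ : LinearMap.range T.toLinearMap) ∈
      Metric.closedBall (0 : LinearMap.range T.toLinearMap) (‖T‖ * R) := by
    rw [mem_closedBall_zero_iff]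
    change ‖T u‖ ≤ ‖T‖ * R
    exact (T.le_opNorm u).trans (by gcongr)
  have hmem' := hcov hmem
  simp only [Set.mem_iUnion] at hmem'
  obtain ⟨w, hw, hwb⟩ := hmem'
  rw [Metric.mem_ball, dist_eq_norm] at hwb
  have hwb' : ‖T u - (w : LipFree M o)‖ < η / (2 * (|C| + 1)) := hwb
  have h3 := hn w hw f hf1 hf2
  have h4 := pairing_le (T u - (w : LipFree M o)) f
  have h5 : pair (T u) f = pair (T u - (w : LipFree M o)) f + pair (w : LipFree M o) f := by
    rw [pair_sub_left]
    ring
  have h6 : ‖T u - (w : LipFree M o)‖ * ‖f‖ ≤ η / (2 * (|C| + 1)) * (|C| + 1) := by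
    have h7 : ‖f‖ ≤ |C| + 1 := by
      have := le_abs_self C
      linarith
    exact mul_le_mul hwb'.le h7 (norm_nonneg _) hε.le
  have h8 : η / (2 * (|C| + 1)) * (|C| + 1) = η / 2 := by field_simp
  rw [h5]
  have h9 := abs_add_le (pair (T u - (w : LipFree M o)) f) (pair (w : LipFree M o) f)
  linarith

end P090H22
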