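import Vale.Agent.Lib.P090H22.Space2
import Vale.Agent.Lib.P090H22.Tail
import Vale.Agent.Lib.P090H22.Contra

/-!
# P090: the space `MM` has no bounded approximation property
-/

open Finset Filter Topology

namespace P090H22

section functions

variable (l n : ℕ) (φ : X (pr n) → Pt → Letter → ℝ) (K : ℝ)

/-- Bump function. -/
noncomputable def gH (i : Lam Letter (sl l) × X (pr n)) (w : Lam Letter (sl l) × Pt) : ℝ :=
  bump (sl l) i.1 w.1

/-- Flow function, zero on the `n`-th component. -/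
noncomputable def gJ (i : Lam Letter (sl l) × X (pr n)) (a : Letter)
    (w : Lam Letter (sl l) × Pt) : ℝ :=
  if inComp n w.2 then 0 else jfun (PXn n) (PYn n) φ (sl l) i.1 i.2 a w.1 w.2

/-- Divergence defect off the `n`-th component. -/
noncomputable def gR (i : Lam Letter (sl l) × X (pr n)) (w : Lam Letter (sl l) × Pt) : ℝ :=
  if inComp n w.2 then 0
  else bump (sl l) i.1 w.1 - ∑ a, jfun (PXn n) (PYn n) φ (sl l) i.1 i.2 a w.1 w.2

/-- Bump function on the `n`-th component. -/
noncomputable def gK (i : Lam Letter (sl l) × X (pr n)) (w : Lam Letter (sl l) × Pt) : ℝ :=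
  if inComp n w.2 then bump (sl l) i.1 w.1 else 0

variable {l n φ K}

theorem sl_real_pos (l : ℕ) : (0 : ℝ) < sl l := by exact_mod_cast sl_pos l

theorem one_le_sl_real (l : ℕ) : (1 : ℝ) ≤ sl l := by exact_mod_cast sl_pos l

theorem Lp_gH (i : Lam Letter (sl l) × X (pr n)) :
    Lp (1 / (sl l : ℝ)) (onLevel l (gH l n i)) := by
  have hs := sl_real_pos l
  refine Lp_onLevel l _ (by positivity) (fun w => ?_) (fun p z z' a _ => ?_) (fun p z z' => ?_)
  · rw [one_div, inv_mul_cancel₀ hs.ne', gH, abs_of_nonneg (bump_nonneg _ _)]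
    exact bump_le_one _ _
  · exact bump_step (sl_pos l) _ _ _
  · simp only [gH, sub_self, abs_zero]
    positivity

theorem Lp_gJ (hφ : GoodFlow (PXn n) (PYn n) φ K) (i : Lam Letter (sl l) × X (pr n))
    (a : Letter) : Lp (K / (sl l : ℝ) + 2 * K / ((l : ℝ) + 1)) (onLevel l (gJ l n φ i a)) := by
  have hs := sl_real_pos l
  have ht : (0 : ℝ) < (l : ℝ) + 1 := by positivity
  have hK : 0 < K := lt_of_lt_of_le one_pos hφ.one_le
  have hb : ∀ w, |gJ l n φ i a w| ≤ K := by
    intro w
    unfold gJ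
    split_ifs
    · simpa using hK.le
    · exact jfun_bound hφ _ _ _ _ _
  have h1 : 0 ≤ 2 * K / ((l : ℝ) + 1) := by positivity
  have h2 : 0 ≤ K / (sl l : ℝ) := by positivity
  refine Lp_onLevel l _ (by positivity) (fun w => ?_) (fun p z z' b hb' => ?_) (fun p z z' => ?_)
  · refine (hb w).trans ?_
    rw [add_mul, div_mul_cancel₀ _ hs.ne']
    have : 0 ≤ 2 * K / ((l : ℝ) + 1) * sl l := by positivity
    linarith
  · have hcomp := actPt_comp b z z' hb' n
    unfold gJ
    by_cases hz : inComp n z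
    · rw [if_pos hz, if_pos (hcomp.1 hz)]
      simp only [sub_self, abs_zero]
      positivity
    · rw [if_neg hz, if_neg (fun h => hz (hcomp.2 h))]
      have hact : (PYn n).act b z = some z' := by
        show (if inComp n z then none else actPt b z) = some z'
        rw [if_neg hz]; exact hb'
      refine (jfun_step hφ (sl_pos l) i.1 i.2 a p z z' b hact).trans ?_
      linarith
  · calc |gJ l n φ i a (p, z) - gJ l n φ i a (p, z')|
        ≤ |gJ l n φ i a (p, z)| + |gJ l n φ i a (p, z')| := abs_sub _ _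
      _ ≤ K + K := add_le_add (hb _) (hb _)
      _ ≤ (K / (sl l : ℝ) + 2 * K / ((l : ℝ) + 1)) * ((l : ℝ) + 1) := by
        rw [add_mul, div_mul_cancel₀ _ ht.ne']
        have : 0 ≤ K / (sl l : ℝ) * ((l : ℝ) + 1) := by positivity
        linarith

theorem gR_bound (hφ : GoodFlow (PXn n) (PYn n) φ K) (i : Lam Letter (sl l) × X (pr n))
    (w : Lam Letter (sl l) × Pt) : |gR l n φ i w| ≤ 7 * K / (sl l : ℝ) := by
  have hK : 0 < K := lt_of_lt_of_le one_pos hφ.one_le
  have hs := sl_real_pos l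
  unfold gR
  split_ifs
  · simp only [abs_zero]; positivity
  · have := jfun_div hφ (sl_pos l) i.1 i.2 w.1 w.2
    have hc : (Fintype.card Letter : ℝ) = 7 := by
      simp [Letter]
    rw [hc] at this
    exact this

theorem Lp_gR (hφ : GoodFlow (PXn n) (PYn n) φ K) (i : Lam Letter (sl l) × X (pr n)) :
    Lp (14 * K / (sl l : ℝ)) (onLevel l (gR l n φ i)) := by
  have hK : 0 < K := lt_of_lt_of_le one_pos hφ.one_le
  have hs := sl_real_pos l
  have hs1 := one_le_sl_real l
  have ht : (1 : ℝ) ≤ (l : ℝ) + 1 := by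
    have : (0 : ℝ) ≤ l := Nat.cast_nonneg l
    linarith
  have hb := gR_bound (l := l) hφ i
  have h7 : 0 ≤ 7 * K / (sl l : ℝ) := by positivity
  have h14 : 14 * K / (sl l : ℝ) = 7 * K / (sl l : ℝ) + 7 * K / (sl l : ℝ) := by ring
  have hd : ∀ w w', |gR l n φ i w - gR l n φ i w'| ≤ 14 * K / (sl l : ℝ) := by
    intro w w'
    rw [h14]
    exact (abs_sub _ _).trans (add_le_add (hb _) (hb _))
  refine Lp_onLevel l _ (by positivity) (fun w => ?_) (fun p z z' b _ => hd _ _)
    (fun p z z' => ?_)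
  · refine (hb w).trans ?_
    rw [h14]
    nlinarith
  · refine (hd _ _).trans ?_
    rw [h14]
    nlinarith

theorem Lp_gK (i : Lam Letter (sl l) × X (pr n)) : Lp 1 (onLevel l (gK l n i)) := by
  have hs1 := one_le_sl_real l
  have ht : (1 : ℝ) ≤ (l : ℝ) + 1 := by
    have : (0 : ℝ) ≤ l := Nat.cast_nonneg l
    linarith
  have h0 : ∀ w, 0 ≤ gK l n i w := by
    intro w
    unfold gK
    split_ifs
    · exact bump_nonneg _ _
    · exact le_rfl
  have h1 : ∀ w, gK l n i w ≤ 1 := by
    intro w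
    unfold gK
    split_ifs
    · exact bump_le_one _ _
    · exact zero_le_one
  have hd : ∀ w w', |gK l n i w - gK l n i w'| ≤ 1 := by
    intro w w'
    rw [abs_le]
    constructor <;> linarith [h0 w, h0 w', h1 w, h1 w']
  refine Lp_onLevel l _ (by positivity) (fun w => ?_) (fun p z z' b _ => hd _ _)
    (fun p z z' => ?_)
  · rw [abs_of_nonneg (h0 w)]
    linarith [h1 w]
  · refine (hd _ _).trans ?_
    linarith

theorem g_dec (i : Lam Letter (sl l) × X (pr n)) (w : Lam Letter (sl l) × Pt) :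
    gH l n i w = ∑ a, gJ l n φ i a w + gR l n φ i w + gK l n i w := by
  unfold gH gJ gR gK
  by_cases h : inComp n w.2
  · simp [h]
  · simp [h]

end functions

/-- The move of a point of the `n`-th component along a letter. -/
noncomputable def sig (l n : ℕ) (a : Letter) (i : Lam Letter (sl l) × X (pr n)) :
    Lam Letter (sl l) × X (pr n) :=
  match actX (pr n) a i.2 with
  | some y => (i.1 * letterPerm (sl l + 1) a, y)
  | none => i

theorem sig_some {l n : ℕ} {a : Letter} {i : Lam Letter (sl l) × X (pr n)} {y : X (pr n)}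
    (h : actX (pr n) a i.2 = some y) : sig l n a i = (i.1 * letterPerm (sl l + 1) a, y) := by
  unfold sig
  rw [h]

theorem sig_none {l n : ℕ} {a : Letter} {i : Lam Letter (sl l) × X (pr n)}
    (h : actX (pr n) a i.2 = none) : sig l n a i = i := by
  unfold sig
  rw [h]

theorem sig_invol (l n : ℕ) (a : Letter) : Function.Involutive (sig l n a) := by
  intro i
  rcases hy : actX (pr n) a i.2 with _ | y
  · rw [sig_none hy, sig_none hy]
  · have h1 := sig_some hy
    have h2 : actX (pr n) a (sig l n a i).2 = some i.2 := by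
      rw [h1]
      exact actX_invol _ _ _ _ hy
    rw [sig_some h2, h1, mul_assoc, letterPerm_mul_self, mul_one]

/-- The final numeric contradiction. -/
theorem final_arith (K lam t s : ℝ) (hK : 1 ≤ K) (hlam : 1 ≤ lam) (ht : 1000 * K * lam ≤ t)
    (hs : s = t ^ 3)
    (h : 1 ≤ 1 / s * (1 + lam * t) + 7 * (K / s + 2 * K / t) * lam / 2
      + 14 * K / s * (1 + 1 + lam * t) + 1 / 4) : False := by
  have hKl : 1 ≤ K * lam := by nlinarith
  have ht0 : 0 < t := by nlinarith
  have ht1 : 1000 ≤ t := by nlinarith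
  have hs0 : 0 < s := by rw [hs]; positivity
  subst hs
  have h1 : 1 / t ^ 3 * (1 + lam * t) ≤ 1 / 100 := by
    rw [one_div, inv_mul_le_iff₀ (by positivity)]
    have : lam ≤ t := by nlinarith
    nlinarith [mul_pos ht0 ht0, mul_pos (mul_pos ht0 ht0) ht0]
  have h2 : 7 * (K / t ^ 3 + 2 * K / t) * lam / 2 ≤ 1 / 10 := by
    have e1 : K / t ^ 3 ≤ K / t := by
      apply div_le_div_of_nonneg_left (by linarith) ht0
      nlinarith [mul_pos ht0 ht0]
    have e2 : 7 * (K / t ^ 3 + 2 * K / t) * lam / 2 ≤ 21 / 2 * (K * lam) / t := by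
      have : K / t ^ 3 + 2 * K / t ≤ 3 * (K / t) := by
        have : 2 * K / t = 2 * (K / t) := by ring
        linarith
      have e3 : 21 / 2 * (K * lam) / t = 7 * (3 * (K / t)) * lam / 2 := by ring
      rw [e3]
      gcongr
    refine e2.trans ?_
    rw [div_le_iff₀ ht0]
    nlinarith
  have h3 : 14 * K / t ^ 3 * (1 + 1 + lam * t) ≤ 1 / 10 := by
    rw [div_mul_eq_mul_div, div_le_iff₀ (by positivity)]
    have e1 : 1 + 1 + lam * t ≤ 2 * (lam * t) := by nlinarith
    have e2 : 14 * K * (1 + 1 + lam * t) ≤ 28 * (K * lam) * t := by nlinarith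
    have e3 : 1000 * (K * lam) * t ≤ t * t := by nlinarith
    nlinarith [mul_pos ht0 ht0]
  linarith

theorem not_lamBAP (o : MM) (lam : ℝ) (hlam : 1 ≤ lam) : ¬ LamBAP (LipFree MM o) lam := by
  intro hB
  obtain ⟨K, hK⟩ := exists_goodFlow
  have hK1 : 1 ≤ K := (hK 0).choose_spec.one_le
  obtain ⟨l, hl, hlo⟩ : ∃ l : ℕ, 1000 * K * lam ≤ (l : ℝ) + 1 ∧ o.l ≠ l := by
    obtain ⟨N, hN⟩ := exists_nat_ge (1000 * K * lam)
    by_cases h : o.l = N
    · exact ⟨N + 1, by push_cast; linarith, by omega⟩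
    · exact ⟨N, by linarith, h⟩
  obtain ⟨T, hTfin, hTn, hTe⟩ := hB
    (Set.range (fun p : Lam Letter (sl l) => del o (⟨l, p, none⟩ : MM)))
    (Set.finite_range _).isCompact 1 one_pos
  have hfin : ∀ z : MM, ∀ᶠ n in atTop, z ∉ {u : MM | inComp n u.z} := by
    intro z
    rcases hz : z.z with _ | ⟨i, y⟩
    · refine Eventually.of_forall (fun n => ?_)
      simp only [Set.mem_setOf_eq, hz]
      exact id
    · filter_upwards [eventually_gt_atTop i] with n hn
      simp only [Set.mem_setOf_eq, hz]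
      intro h
      have : i = n := h
      omega
  obtain ⟨n, hn⟩ := (tail_small T hTfin (fun n => {u : MM | inComp n u.z}) hfin 1
    ((sl l : ℝ) + sl o.l) (1 / 4) (by norm_num)).exists
  obtain ⟨φ, hφ⟩ := hK n
  have hs := sl_real_pos l
  have ht : (0 : ℝ) < (l : ℝ) + 1 := by positivity
  have hKpos : 0 < K := by linarith
  have hc1 : (0 : ℝ) < 1 / (sl l : ℝ) := by positivity
  have hc2 : (0 : ℝ) < K / (sl l : ℝ) + 2 * K / ((l : ℝ) + 1) := by positivity
  have hc3 : (0 : ℝ) < 14 * K / (sl l : ℝ) := by positivity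
  haveI : Nonempty (Lam Letter (sl l) × X (pr n)) := ⟨(1, 0)⟩
  have key := averaging T lam 1 ((l : ℝ) + 1) (1 / (sl l : ℝ))
    (K / (sl l : ℝ) + 2 * K / ((l : ℝ) + 1)) (14 * K / (sl l : ℝ)) (1 / 4) hTn
    (ι := Lam Letter (sl l) × X (pr n)) (A := Letter)
    (fun i => (⟨l, i.1, some ⟨n, i.2⟩⟩ : MM)) (fun i => (⟨l, i.1, none⟩ : MM))
    (sig l n) (sig_invol l n)
    (fun i => mkLip l o hlo (gH l n i) _ hc1 (Lp_gH i))
    (fun i a => mkLip l o hlo (gJ l n φ i a) _ hc2 (Lp_gJ hφ i a))
    (fun i => mkLip l o hlo (gR l n φ i) _ hc3 (Lp_gR hφ i))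
    (fun i => mkLip l o hlo (gK l n i) _ one_pos (Lp_gK i))
    ?_ ?_ ?_ ?_ ?_ ?_ ?_ ?_ ?_ ?_ ?_
  · have hc : (Fintype.card Letter : ℝ) = 7 := by
      simp [Letter]
    rw [hc] at key
    refine final_arith K lam ((l : ℝ) + 1) (sl l : ℝ) hK1 hlam hl ?_ key
    unfold sl
    push_cast
    ring
  · intro i
    apply Lip0.ext
    intro u
    rw [Lip0.add_apply, Lip0.add_apply, Lip0.sum_apply]
    simp only [mkLip_apply]
    rcases u with ⟨k, p, z⟩
    by_cases hk : k = l
    · subst hk
      simp only [onLevel_same]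
      exact g_dec i (p, z)
    · simp only [onLevel_ne l _ (⟨k, p, z⟩ : MM) hk, Finset.sum_const_zero, add_zero]
  · intro i a
    apply Lip0.ext
    intro u
    rw [Lip0.neg_apply]
    simp only [mkLip_apply]
    rcases u with ⟨k, p, z⟩
    by_cases hk : k = l
    · subst hk
      simp only [onLevel_same]
      unfold gJ
      by_cases hz : inComp n z
      · simp [hz]
      · simp only [hz, if_false]
        rcases hy : actX (pr n) a i.2 with _ | y
        · rw [sig_none hy, jfun_zero hφ _ _ _ _ _ hy, neg_zero]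
        · rw [sig_some hy]
          exact jfun_anti hφ (sl_pos k) _ _ _ _ _ _ hy
    · simp only [onLevel_ne l _ (⟨k, p, z⟩ : MM) hk, neg_zero]
  · intro i a
    rcases hy : actX (pr n) a i.2 with _ | y
    · rw [sig_none hy, dist_self]
      exact zero_le_one
    · rw [sig_some hy]
      refine dist_edge l i.1 _ _ a ?_
      simp only [actPt, hy, Option.map_some]
  · intro i
    exact dist_hub l i.1 _ _
  · intro i
    exact (hTe _ ⟨i.1, rfl⟩).le
  · intro i
    exact mkLip_norm _ _ _ _ _ _ _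
  · intro i
    rw [mkLip_apply, onLevel_same]
    exact bump_self _
  · intro i a
    exact mkLip_norm _ _ _ _ _ _ _
  · intro i
    exact mkLip_norm _ _ _ _ _ _ _
  · intro i
    rw [mkLip_apply, onLevel_same]
    refine (gR_bound hφ i _).trans ?_
    gcongr
    norm_num
  · intro i
    refine hn _ ?_ _ (mkLip_norm _ _ _ _ _ _ _) ?_
    · refine (norm_del_le _).trans ?_
      exact dist_all _ _
    · rintro ⟨k, p, z⟩ hz
      rw [mkLip_apply]
      by_cases hk : k = l
      · subst hk
        rw [onLevel_same]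
        unfold gK
        rw [if_neg]
        exact hz
      · exact onLevel_ne l _ (⟨k, p, z⟩ : MM) hk

theorem uniformlyDiscrete_MM : UniformlyDiscrete MM :=
  ⟨1, one_pos, fun _ _ h => one_le_dist_MM h⟩

theorem not_BAP (o : MM) : ¬ BAP (LipFree MM o) := by
  rintro ⟨lam, hlam, h⟩
  exact not_lamBAP o lam hlam h

instance : Countable MM := by
  have hinj : Function.Injective (fun u : MM =>
      (⟨u.l, (u.p, u.z)⟩ : Σ l : ℕ, Lam Letter (sl l) × Pt)) := by
    rintro ⟨l, p, z⟩ ⟨l', p', z'⟩ h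
    simp only [Sigma.mk.injEq] at h
    obtain ⟨rfl, h2⟩ := h
    simp only [heq_eq_eq, Prod.mk.injEq] at h2
    obtain ⟨rfl, rfl⟩ := h2
    rfl
  exact hinj.countable

end P090H22
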