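import Vale.Agent.Lib.P090H22.Defs
import Vale.Agent.Lib.P090H22.Gap


/-!
# P090: the gap inequality on a product `X p × X q`, `p`, `q` coprime
-/

open Finset

namespace P090H22

/-- The energy along the `j`-th involution of `X m`. -/
noncomputable def en (m : ℕ) [NeZero m] (f : X m → ℝ) (j : Fin 6) : ℝ :=
  ∑ v, (f v - f (inv6 m j v)) ^ 2

theorem en_nonneg (m : ℕ) [NeZero m] (f : X m → ℝ) (j : Fin 6) : 0 ≤ en m f j :=
  Finset.sum_nonneg fun _ _ => sq_nonneg _

theorem sum_comp_inv6 (m : ℕ) [NeZero m] (j : Fin 6) (F : X m → ℝ) :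
    ∑ v, F (inv6 m j v) = ∑ v, F v :=
  Fintype.sum_equiv ⟨inv6 m j, inv6 m j, inv6_inv6 m j, inv6_inv6 m j⟩ _ _ (fun _ => rfl)

theorem en_comp (m : ℕ) [NeZero m] (f : X m → ℝ) (a b : Fin 6) :
    ∑ v, (f v - f (inv6 m a (inv6 m b v))) ^ 2 ≤ 2 * en m f b + 2 * en m f a := by
  have h : ∀ v, (f v - f (inv6 m a (inv6 m b v))) ^ 2 ≤
      2 * (f v - f (inv6 m b v)) ^ 2
        + 2 * (f (inv6 m b v) - f (inv6 m a (inv6 m b v))) ^ 2 := by
    intro v
    nlinarith [sq_nonneg ((f v - f (inv6 m b v)) - (f (inv6 m b v) - f (inv6 m a (inv6 m b v))))]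
  refine (Finset.sum_le_sum fun v _ => h v).trans ?_
  rw [Finset.sum_add_distrib, ← Finset.mul_sum, ← Finset.mul_sum]
  rw [sum_comp_inv6 m b (fun u => (f u - f (inv6 m a u)) ^ 2)]
  exact le_rfl

theorem var_bound {C : ℝ} (hC : 0 < C) (hgap : ∀ (m : ℕ) [NeZero m] (f : ZMod m × ZMod m → ℝ),
    ∑ v, f v = 0 → ∑ v, f v ^ 2 ≤ C * (∑ v, (f v - f (v.1 + v.2, v.2)) ^ 2
      + ∑ v, (f v - f (v.1, v.1 + v.2)) ^ 2 + ∑ v, (f v - f (v.1 + 1, v.2)) ^ 2
      + ∑ v, (f v - f (v.1, v.2 + 1)) ^ 2)) (m : ℕ) [NeZero m] (f : X m → ℝ) (μ : ℝ)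
    (hμ : ∑ v, (f v - μ) = 0) :
    ∑ v, (f v - μ) ^ 2 ≤ 4 * C * ∑ j, en m f j := by
  have h := hgap m (fun v => f v - μ) hμ
  refine h.trans ?_
  have h1 : ∑ v : X m, ((f v - μ) - (f (v.1 + v.2, v.2) - μ)) ^ 2 ≤ 2 * en m f 1 + 2 * en m f 0 := by
    refine le_trans (le_of_eq ?_) (en_comp m f 0 1)
    apply Finset.sum_congr rfl
    intro v _
    have : inv6 m 0 (inv6 m 1 v) = (v.1 + v.2, v.2) := by
      simp [inv6, add_comm]
    rw [this]; ring
  have h2 : ∑ v : X m, ((f v - μ) - (f (v.1, v.1 + v.2) - μ)) ^ 2 ≤ 2 * en m f 4 + 2 * en m f 3 := by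
    refine le_trans (le_of_eq ?_) (en_comp m f 3 4)
    apply Finset.sum_congr rfl
    intro v _
    have : inv6 m 3 (inv6 m 4 v) = (v.1, v.1 + v.2) := by
      simp [inv6, add_comm]
    rw [this]; ring
  have h3 : ∑ v : X m, ((f v - μ) - (f (v.1 + 1, v.2) - μ)) ^ 2 ≤ 2 * en m f 0 + 2 * en m f 2 := by
    refine le_trans (le_of_eq ?_) (en_comp m f 2 0)
    apply Finset.sum_congr rfl
    intro v _
    have : inv6 m 2 (inv6 m 0 v) = (v.1 + 1, v.2) := by
      simp [inv6, add_comm]
    rw [this]; ring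
  have h4 : ∑ v : X m, ((f v - μ) - (f (v.1, v.2 + 1) - μ)) ^ 2 ≤ 2 * en m f 3 + 2 * en m f 5 := by
    refine le_trans (le_of_eq ?_) (en_comp m f 5 3)
    apply Finset.sum_congr rfl
    intro v _
    have : inv6 m 5 (inv6 m 3 v) = (v.1, v.2 + 1) := by
      simp [inv6, add_comm]
    rw [this]; ring
  have hs : ∑ j, en m f j = en m f 0 + en m f 1 + en m f 2 + en m f 3 + en m f 4 + en m f 5 := by
    simp [Fin.sum_univ_succ]
    ring
  have e0 := en_nonneg m f 0
  have e1 := en_nonneg m f 1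
  have e2 := en_nonneg m f 2
  have e3 := en_nonneg m f 3
  have e4 := en_nonneg m f 4
  have e5 := en_nonneg m f 5
  rw [hs]
  have : 4 * C * (en m f 0 + en m f 1 + en m f 2 + en m f 3 + en m f 4 + en m f 5)
      = C * (4 * (en m f 0 + en m f 1 + en m f 2 + en m f 3 + en m f 4 + en m f 5)) := by ring
  rw [this]
  apply mul_le_mul_of_nonneg_left _ hC.le
  linarith

/-- The Chinese remainder bijection. -/
noncomputable def crt (p q : ℕ) (h : p.Coprime q) : X (p * q) ≃ X p × X q where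
  toFun v := (((ZMod.chineseRemainder h v.1).1, (ZMod.chineseRemainder h v.2).1),
    ((ZMod.chineseRemainder h v.1).2, (ZMod.chineseRemainder h v.2).2))
  invFun u := ((ZMod.chineseRemainder h).symm (u.1.1, u.2.1),
    (ZMod.chineseRemainder h).symm (u.1.2, u.2.2))
  left_inv v := by simp
  right_inv u := by simp

theorem crt_inv6 (p q : ℕ) (h : p.Coprime q) (j : Fin 6) (v : X (p * q)) :
    crt p q h (inv6 (p * q) j v) = (inv6 p j (crt p q h v).1, inv6 q j (crt p q h v).2) := by
  fin_cases j <;> simp [crt, inv6]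

/-! ### Counting parities -/

theorem card_even (m : ℕ) [NeZero m] :
    ((univ : Finset (ZMod m)).filter (fun x => x.val % 2 = 0)).card = (m + 1) / 2 := by
  obtain ⟨n, rfl⟩ : ∃ n, m = n + 1 := ⟨m - 1, by have := NeZero.pos m; omega⟩
  have h1 : ((univ : Finset (ZMod (n + 1))).filter (fun x => x.val % 2 = 0)).card
      = ((range (n + 1)).filter (fun i => i % 2 = 0)).card := by
    rw [Finset.card_filter, Finset.card_filter]
    exact Fin.sum_univ_eq_sum_range (fun i => if i % 2 = 0 then 1 else 0) (n + 1)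
  rw [h1]
  clear h1
  have : ∀ k : ℕ, ((range k).filter (fun i => i % 2 = 0)).card = (k + 1) / 2 := by
    intro k
    induction k with
    | zero => simp
    | succ k ih =>
      rw [Finset.range_add_one, Finset.filter_insert]
      split_ifs with h
      · rw [Finset.card_insert_of_notMem (by simp), ih]; omega
      · rw [ih]; omega
  rw [this]

theorem card_par_true (m : ℕ) [NeZero m] :
    ((univ : Finset (X m)).filter (fun v => par v = true)).card = (m + 1) / 2 * m := by
  have : (univ : Finset (X m)).filter (fun v => par v = true)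
      = ((univ : Finset (ZMod m)).filter (fun x => x.val % 2 = 0)) ×ˢ univ := by
    ext v
    simp [par]
  rw [this, Finset.card_product, card_even, Finset.card_univ, ZMod.card]

theorem card_par_false (m : ℕ) [NeZero m] :
    ((univ : Finset (X m)).filter (fun v => par v = false)).card + (m + 1) / 2 * m = m * m := by
  rw [← card_par_true m]
  have h := Finset.card_filter_add_card_filter_not (s := (univ : Finset (X m)))
    (fun v => par v = true)
  have h2 : ((univ : Finset (X m)).filter (fun v => ¬ par v = true))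
      = ((univ : Finset (X m)).filter (fun v => par v = false)) := by
    ext v; simp
  rw [h2, Finset.card_univ, Fintype.card_prod, ZMod.card] at h
  omega

theorem card_mismatch (p q : ℕ) [NeZero p] [NeZero q] (hq : 2 ≤ q) :
    p * p * (q * q) ≤
      6 * ((univ : Finset (X p × X q)).filter (fun v => par v.1 ≠ par v.2)).card := by
  have hsub : ((univ : Finset (X p)).filter (fun v => par v = true)) ×ˢ
      ((univ : Finset (X q)).filter (fun v => par v = false)) ⊆
      (univ : Finset (X p × X q)).filter (fun v => par v.1 ≠ par v.2) := by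
    intro v hv
    simp only [mem_product, mem_filter, mem_univ, true_and] at hv ⊢
    rw [hv.1, hv.2]; simp
  have h1 := Finset.card_le_card hsub
  rw [Finset.card_product, card_par_true] at h1
  have h2 := card_par_false q
  set F := ((univ : Finset (X q)).filter (fun v => par v = false)).card with hF
  have h3 : p * p ≤ 2 * ((p + 1) / 2 * p) := by
    have : p ≤ 2 * ((p + 1) / 2) := by omega
    calc p * p ≤ (2 * ((p + 1) / 2)) * p := Nat.mul_le_mul_right _ this
      _ = 2 * ((p + 1) / 2 * p) := by ring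
  have h4 : q * q ≤ 3 * F := by
    have h5 : 3 * ((q + 1) / 2) ≤ 2 * q := by omega
    have h6 : 3 * ((q + 1) / 2 * q) ≤ 2 * (q * q) := by
      calc 3 * ((q + 1) / 2 * q) = (3 * ((q + 1) / 2)) * q := by ring
        _ ≤ (2 * q) * q := Nat.mul_le_mul_right _ h5
        _ = 2 * (q * q) := by ring
    omega
  calc p * p * (q * q) ≤ (2 * ((p + 1) / 2 * p)) * (3 * F) := Nat.mul_le_mul h3 h4
    _ = 6 * ((p + 1) / 2 * p * F) := by ring
    _ ≤ _ := Nat.mul_le_mul_left _ h1

/-- Module ProdGap.  Sketch: by the Chinese remainder theorem `X p × X q ≃ X (p * q)`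
equivariantly for the six involutions; `gap_fourier` gives the variance bound
`∑ (f - mean)^2 ≤ C₀ ∑_j ∑ (f - f ∘ inv6 j)^2` (use
`f ∘ S = f ∘ (inv6 0) ∘ (inv6 1)` etc. and `(a+b)^2 ≤ 2 a^2 + 2 b^2`).
The mismatch set `B = {v | par v.1 ≠ par v.2}` has at least `1/6` of the points
(the class `par = true` has proportion in `[1/2, 2/3]` for `2 ≤ m`), and
`∑ f^2 = ∑ (f-mean)^2 + |V| mean^2`, `|B| mean^2 ≤ 2 ∑_B f^2 + 2 ∑ (f - mean)^2`. -/
theorem prod_gap : ∃ C : ℝ, 0 < C ∧ ∀ (p q : ℕ) [NeZero p] [NeZero q], p.Coprime q → 2 ≤ p →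
    2 ≤ q → ∀ f : X p × X q → ℝ,
    ∑ v, f v ^ 2 ≤ C * (∑ j : Fin 6, ∑ v, (f v - f (inv6 p j v.1, inv6 q j v.2)) ^ 2
      + ∑ v with par v.1 ≠ par v.2, f v ^ 2) := by
  obtain ⟨C, hC, hgap⟩ := gap_fourier
  refine ⟨52 * C + 12, by positivity, ?_⟩
  intro p q _ _ hpq _ hq f
  set N : ℝ := ((p * p * (q * q) : ℕ) : ℝ) with hN
  have hNpos : 0 < N := by
    rw [hN]
    have := NeZero.pos p
    have := NeZero.pos q
    positivity
  have hcard : ((univ : Finset (X p × X q)).card : ℝ) = N := by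
    rw [Finset.card_univ, Fintype.card_prod, Fintype.card_prod, Fintype.card_prod, ZMod.card,
      ZMod.card]
  set μ : ℝ := (∑ v, f v) / N with hμ
  have hmean : ∑ v, (f v - μ) = 0 := by
    rw [Finset.sum_sub_distrib, Finset.sum_const, nsmul_eq_mul, hcard, hμ]
    field_simp
    ring
  -- the variance bound
  set E : ℝ := ∑ j : Fin 6, ∑ v, (f v - f (inv6 p j v.1, inv6 q j v.2)) ^ 2 with hE
  set B : ℝ := ∑ v with par v.1 ≠ par v.2, f v ^ 2 with hB
  set V : ℝ := ∑ v, (f v - μ) ^ 2 with hV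
  have hVE : V ≤ 4 * C * E := by
    have h1 : V = ∑ u, (f (crt p q hpq u) - μ) ^ 2 :=
      (Fintype.sum_equiv (crt p q hpq) _ _ (fun _ => rfl)).symm
    have h2 : ∑ u, (f (crt p q hpq u) - μ) = 0 := by
      rw [← hmean]
      exact Fintype.sum_equiv (crt p q hpq) _ _ (fun _ => rfl)
    have h3 : E = ∑ j, en (p * q) (fun u => f (crt p q hpq u)) j := by
      rw [hE]
      apply Finset.sum_congr rfl
      intro j _
      rw [en]
      refine (Fintype.sum_equiv (crt p q hpq) _ _ (fun u => ?_)).symm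
      rw [crt_inv6]
    rw [h1, h3]
    exact var_bound hC hgap (p * q) (fun u => f (crt p q hpq u)) μ h2
  have hsplit : ∑ v, f v ^ 2 = V + N * μ ^ 2 := by
    have : ∀ v, f v ^ 2 = (f v - μ) ^ 2 + 2 * μ * (f v - μ) + μ ^ 2 := fun v => by ring
    rw [Finset.sum_congr rfl (fun v _ => this v), Finset.sum_add_distrib, Finset.sum_add_distrib,
      ← Finset.mul_sum, hmean, Finset.sum_const, nsmul_eq_mul, hcard]
    ring
  have hBcard : N * μ ^ 2 ≤ 12 * B + 12 * V := by
    have h1 : N ≤ 6 * (((univ : Finset (X p × X q)).filter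
        (fun v => par v.1 ≠ par v.2)).card : ℝ) := by
      rw [hN]
      exact_mod_cast card_mismatch p q hq
    have h2 : (((univ : Finset (X p × X q)).filter
        (fun v => par v.1 ≠ par v.2)).card : ℝ) * μ ^ 2 ≤ 2 * B + 2 * V := by
      rw [← nsmul_eq_mul, ← Finset.sum_const]
      have h3 : ∑ v ∈ (univ : Finset (X p × X q)).filter (fun v => par v.1 ≠ par v.2), μ ^ 2
          ≤ ∑ v ∈ (univ : Finset (X p × X q)).filter (fun v => par v.1 ≠ par v.2),
            (2 * f v ^ 2 + 2 * (f v - μ) ^ 2) := by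
        apply Finset.sum_le_sum
        intro v _
        nlinarith [sq_nonneg (f v + (f v - μ))]
      refine h3.trans ?_
      rw [Finset.sum_add_distrib, ← Finset.mul_sum, ← Finset.mul_sum]
      gcongr
      apply Finset.sum_le_univ_sum_of_nonneg
      intro v
      positivity
    nlinarith [sq_nonneg μ]
  have hE0 : 0 ≤ E := Finset.sum_nonneg fun _ _ => Finset.sum_nonneg fun _ _ => sq_nonneg _
  have hB0 : 0 ≤ B := Finset.sum_nonneg fun _ _ => sq_nonneg _
  rw [hsplit]
  nlinarith [mul_nonneg hC.le hB0, mul_nonneg hC.le hE0]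

end P090H22
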