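import Mathlib

/-!
# P090: the metric defined by a family of test functions
-/

namespace P090H22

/-- A family `C` of test functions on `M`, with oscillations bounded by `B`, containing the
indicators of points. -/
structure TestFamily (M : Type) where
  /-- the test functions -/
  C : Set (M → ℝ)
  /-- oscillation bound -/
  B : M → M → ℝ
  bdd : ∀ f ∈ C, ∀ u v, |f u - f v| ≤ B u v
  ind : ∀ u, (∃ f ∈ C, f u = 1 ∧ ∀ v, v ≠ u → f v = 0)

/-- The distance: supremum of oscillations of the test functions. -/
noncomputable def TestFamily.d {M : Type} (F : TestFamily M) (u v : M) : ℝ :=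
  sSup ((fun f : M → ℝ => |f u - f v|) '' F.C)

theorem TestFamily.le_d {M : Type} (F : TestFamily M) {f : M → ℝ} (hf : f ∈ F.C) (u v : M) :
    |f u - f v| ≤ F.d u v := by
  refine le_csSup ⟨F.B u v, ?_⟩ ⟨f, hf, rfl⟩
  rintro _ ⟨g, hg, rfl⟩
  exact F.bdd g hg u v

theorem TestFamily.d_le {M : Type} (F : TestFamily M) (u v : M) (r : ℝ)
    (h : ∀ f ∈ F.C, |f u - f v| ≤ r) : F.d u v ≤ r := by
  obtain ⟨f, hf, -⟩ := F.ind u
  refine csSup_le ⟨_, ⟨f, hf, rfl⟩⟩ ?_
  rintro _ ⟨g, hg, rfl⟩
  exact h g hg

theorem TestFamily.one_le_d {M : Type} (F : TestFamily M) {u v : M} (h : u ≠ v) :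
    1 ≤ F.d u v := by
  obtain ⟨f, hf, h1, h2⟩ := F.ind u
  have := F.le_d hf u v
  rw [h1, h2 v h.symm] at this
  simpa using this

/-- The metric space structure given by a test family. -/
@[reducible] noncomputable def TestFamily.metric {M : Type} (F : TestFamily M) :
    MetricSpace M where
  dist := F.d
  dist_self := by
    intro u
    apply le_antisymm
    · refine F.d_le u u 0 fun f _ => ?_
      simp
    · obtain ⟨f, hf, -⟩ := F.ind u
      have := F.le_d hf u u
      simpa using this
  dist_comm := by
    intro u v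
    unfold TestFamily.d
    simp only [abs_sub_comm]
  dist_triangle := by
    intro u v w
    refine F.d_le u w _ fun f hf => ?_
    have h1 := F.le_d hf u v
    have h2 := F.le_d hf v w
    have h3 := abs_sub_le (f u) (f v) (f w)
    linarith
  eq_of_dist_eq_zero := by
    intro u v h
    by_contra hne
    have h1 := F.one_le_d hne
    have h2 : F.d u v = 0 := h
    linarith

theorem TestFamily.dist_eq {M : Type} (F : TestFamily M) (u v : M) :
    @dist M F.metric.toPseudoMetricSpace.toDist u v = F.d u v := rfl

end P090H22
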