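import Vale.Agent.Lib.P090H22.Flow
import Vale.Agent.Lib.P090H22.Level
import Vale.Agent.Lib.P090H22.TestMetric

/-!
# P090: the metric space
-/

open Finset

namespace P090H22

/-- The `n`-th prime. -/
noncomputable def pr (n : ℕ) : ℕ := Nat.nth Nat.Prime n

theorem pr_prime (n : ℕ) : (pr n).Prime := Nat.prime_nth_prime n

instance (n : ℕ) : NeZero (pr n) := ⟨(pr_prime n).ne_zero⟩

theorem pr_coprime {n i : ℕ} (h : n ≠ i) : (pr n).Coprime (pr i) := by
  rw [Nat.coprime_primes (pr_prime n) (pr_prime i)]
  intro he
  exact h (Nat.nth_injective Nat.infinite_setOfPred_prime he)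

/-- Points over a position: `none` is the tip, `some ⟨n, y⟩` is a point of the `n`-th component. -/
abbrev Pt : Type := Option (Σ n : ℕ, X (pr n))

/-- Membership in the `n`-th component. -/
def inComp (n : ℕ) : Pt → Prop
  | none => False
  | some z => z.1 = n

instance (n : ℕ) (z : Pt) : Decidable (inComp n z) := by
  unfold inComp
  cases z <;> infer_instance

/-- The partial action of the letters on points. -/
noncomputable def actPt (a : Letter) : Pt → Option Pt
  | none => none
  | some z => (actX (pr z.1) a z.2).map (fun y => some ⟨z.1, y⟩)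

theorem actPt_invol (a : Letter) (z z' : Pt) (h : actPt a z = some z') : actPt a z' = some z := by
  rcases z with _ | ⟨i, y⟩
  · simp [actPt] at h
  · simp only [actPt, Option.map_eq_some_iff] at h
    obtain ⟨y', hy, rfl⟩ := h
    simp only [actPt, Option.map_eq_some_iff]
    exact ⟨y, actX_invol _ _ _ _ hy, rfl⟩

theorem actPt_comp (a : Letter) (z z' : Pt) (h : actPt a z = some z') (n : ℕ) :
    inComp n z ↔ inComp n z' := by
  rcases z with _ | ⟨i, y⟩
  · simp [actPt] at h
  · simp only [actPt, Option.map_eq_some_iff] at h
    obtain ⟨y', hy, rfl⟩ := h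
    rfl

/-- The partial action, with the `n`-th component made inert. -/
noncomputable def PYn (n : ℕ) : PAct Letter Pt where
  act a z := if inComp n z then none else actPt a z
  invol a z z' h := by
    split_ifs at h with hz
    rw [if_neg]
    · exact actPt_invol a z z' h
    · rwa [← actPt_comp a z z' h n]

/-- The partial action on the `n`-th component. -/
noncomputable def PXn (n : ℕ) : PAct Letter (X (pr n)) where
  act := actX (pr n)
  invol a y y' h := actX_invol _ _ _ _ h

/-- The uniform flow. -/
noncomputable def unif (n : ℕ) (y : X (pr n)) (a : Letter) : ℝ :=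
  if (actX (pr n) a y).isSome then
    1 / ((univ.filter (fun c : Letter => (actX (pr n) c y).isSome)).card : ℝ) else 0

theorem exists_goodFlow : ∃ K : ℝ, ∀ n : ℕ, ∃ φ : X (pr n) → Pt → Letter → ℝ,
    GoodFlow (PXn n) (PYn n) φ K := by
  classical
  obtain ⟨K, hK1, hK⟩ := exists_flow
  refine ⟨K, fun n => ?_⟩
  have hflow : ∀ i : ℕ, ∃ φ : X (pr n) → X (pr i) → Letter → ℝ, i ≠ n →
      (∀ y z a, |φ y z a| ≤ K) ∧
      (∀ y z a, actX (pr n) a y = none → φ y z a = 0) ∧
      (∀ y z, ∑ a, φ y z a = 1) ∧
      (∀ y z a y' z', actX (pr n) a y = some y' → actX (pr i) a z = some z' →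
        φ y' z' a = - φ y z a) := by
    intro i
    by_cases hi : i = n
    · exact ⟨fun _ _ _ => 0, fun h => absurd hi h⟩
    · obtain ⟨φ, hφ⟩ := hK (pr n) (pr i) (pr_coprime (Ne.symm hi)) (pr_prime n).two_le
        (pr_prime i).two_le
      exact ⟨φ, fun _ => hφ⟩
  choose ψ hψ using hflow
  have hunif_bound : ∀ y a, |unif n y a| ≤ K := by
    intro y a
    unfold unif
    split_ifs
    · have h3 := actX_deg (pr n) y
      have h3' : (3 : ℝ) ≤ ((univ.filter (fun c : Letter => (actX (pr n) c y).isSome)).card : ℝ) := by
        exact_mod_cast h3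
      rw [abs_of_nonneg (by positivity)]
      rw [div_le_iff₀ (by linarith)]
      nlinarith
    · simp; linarith
  have hunif_zero : ∀ y a, actX (pr n) a y = none → unif n y a = 0 := by
    intro y a h
    unfold unif
    rw [h]; simp
  have hunif_sum : ∀ y, ∑ a, unif n y a = 1 := by
    intro y
    unfold unif
    rw [← Finset.sum_filter, Finset.sum_const, nsmul_eq_mul]
    have h3 := actX_deg (pr n) y
    have : ((univ.filter (fun c : Letter => (actX (pr n) c y).isSome)).card : ℝ) ≠ 0 := by
      have : (3 : ℝ) ≤ ((univ.filter (fun c : Letter => (actX (pr n) c y).isSome)).card : ℝ) := by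
        exact_mod_cast h3
      linarith
    field_simp
  let φ : X (pr n) → Pt → Letter → ℝ := fun y z a =>
    match z with
    | none => unif n y a
    | some z => if z.1 = n then unif n y a else ψ z.1 y z.2 a
  refine ⟨φ, ?_⟩
  refine
    { one_le := hK1
      deg := fun y => actX_deg _ y
      bound := ?_
      zero := ?_
      sum := ?_
      anti := ?_ }
  · intro y z a
    rcases z with _ | z
    · exact hunif_bound y a
    · simp only [φ]
      split_ifs with hz
      · exact hunif_bound y a
      · exact (hψ z.1 hz).1 y z.2 a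
  · intro y z a ha
    rcases z with _ | z
    · exact hunif_zero y a ha
    · simp only [φ]
      split_ifs with hz
      · exact hunif_zero y a ha
      · exact (hψ z.1 hz).2.1 y z.2 a ha
  · intro y z
    rcases z with _ | z
    · exact hunif_sum y
    · simp only [φ]
      split_ifs with hz
      · exact hunif_sum y
      · exact (hψ z.1 hz).2.2.1 y z.2
  · intro y z a y' z' hy hz
    rcases z with _ | z
    · simp [PYn, actPt, inComp] at hz
    · have hz' : (if inComp n (some z) then none else actPt a (some z)) = some z' := hz
      by_cases hn : inComp n (some z)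
      · rw [if_pos hn] at hz'
        exact absurd hz' (by simp)
      · rw [if_neg hn] at hz'
        have hn' : z.1 ≠ n := hn
        simp only [actPt, Option.map_eq_some_iff] at hz'
        obtain ⟨z2, hz2, rfl⟩ := hz'
        simp only [φ, if_neg hn']
        exact (hψ z.1 hn').2.2.2 y z.2 a y' z2 hy hz2

end P090H22
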