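import Vale.Agent.Lib.P090H22.Space
import Vale.Agent.Lib.P090H22.LipFree

/-!
# P090: the metric space `MM` and its Lipschitz functions
-/

open Finset

namespace P090H22

/-- Range parameter of the level `l`. -/
def sl (l : ℕ) : ℕ := (l + 1) ^ 3

theorem sl_pos (l : ℕ) : 0 < sl l := by unfold sl; positivity

/-- The underlying set of the metric space: a level `l`, a position `p` in the finite group of
the level, and a point over the position. -/
structure MM : Type where
  /-- the level -/
  l : ℕ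
  /-- the position -/
  p : Lam Letter (sl l)
  /-- the point over the position -/
  z : Pt

/-- `Lp c f`: the function `f` satisfies the test inequalities with constant `c`. -/
structure Lp (c : ℝ) (f : MM → ℝ) : Prop where
  edge : ∀ (l : ℕ) (p : Lam Letter (sl l)) (z z' : Pt) (a : Letter), actPt a z = some z' →
    |f ⟨l, p, z⟩ - f ⟨l, p * letterPerm (sl l + 1) a, z'⟩| ≤ c
  hub : ∀ (l : ℕ) (p : Lam Letter (sl l)) (z z' : Pt),
    |f ⟨l, p, z⟩ - f ⟨l, p, z'⟩| ≤ c * ((l : ℝ) + 1)
  all : ∀ u v : MM, |f u - f v| ≤ c * ((sl u.l : ℝ) + sl v.l)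

/-- The test family defining the metric. -/
def testFam : TestFamily MM where
  C := {f | Lp 1 f}
  B u v := 1 * ((sl u.l : ℝ) + sl v.l)
  bdd f hf u v := hf.all u v
  ind u := by
    classical
    refine ⟨fun v => if v = u then 1 else 0, ?_, by simp, fun v hv => by simp [hv]⟩
    have h01 : ∀ v w : MM, |(if v = u then (1 : ℝ) else 0) - (if w = u then (1 : ℝ) else 0)| ≤ 1 := by
      intro v w
      split_ifs <;> simp
    refine ⟨fun l p z z' a _ => h01 _ _, fun l p z z' => (h01 _ _).trans ?_,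
      fun v w => (h01 _ _).trans ?_⟩
    · have : (0 : ℝ) ≤ l := Nat.cast_nonneg l
      linarith
    · have h1 : (1 : ℝ) ≤ sl v.l := by exact_mod_cast sl_pos v.l
      have h2 : (1 : ℝ) ≤ sl w.l := by exact_mod_cast sl_pos w.l
      linarith

noncomputable instance : MetricSpace MM := testFam.metric

theorem dist_MM (u v : MM) : dist u v = testFam.d u v := rfl

theorem one_le_dist_MM {u v : MM} (h : u ≠ v) : 1 ≤ dist u v := testFam.one_le_d h

theorem dist_edge (l : ℕ) (p : Lam Letter (sl l)) (z z' : Pt) (a : Letter)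
    (h : actPt a z = some z') :
    dist (⟨l, p, z⟩ : MM) ⟨l, p * letterPerm (sl l + 1) a, z'⟩ ≤ 1 :=
  testFam.d_le _ _ _ (fun _ hf => hf.edge l p z z' a h)

theorem dist_hub (l : ℕ) (p : Lam Letter (sl l)) (z z' : Pt) :
    dist (⟨l, p, z⟩ : MM) ⟨l, p, z'⟩ ≤ (l : ℝ) + 1 := by
  refine testFam.d_le _ _ _ (fun f hf => ?_)
  have := hf.hub l p z z'
  rwa [one_mul] at this

theorem dist_all (u v : MM) : dist u v ≤ (sl u.l : ℝ) + sl v.l := by
  refine testFam.d_le _ _ _ (fun f hf => ?_)
  have := hf.all u v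
  rwa [one_mul] at this

theorem Lp.lipschitz {c : ℝ} {f : MM → ℝ} (hf : Lp c f) (hc : 0 < c) (u v : MM) :
    |f u - f v| ≤ c * dist u v := by
  have hmem : (fun w => c⁻¹ * f w) ∈ testFam.C := by
    have key : ∀ (u v : MM) (r : ℝ), |f u - f v| ≤ c * r → |c⁻¹ * f u - c⁻¹ * f v| ≤ 1 * r := by
      intro u v r h
      rw [← mul_sub, abs_mul, abs_of_pos (inv_pos.2 hc), one_mul, inv_mul_le_iff₀ hc]
      exact h
    refine ⟨fun l p z z' a h => ?_, fun l p z z' => key _ _ _ (hf.hub l p z z'),
      fun u v => key _ _ _ (hf.all u v)⟩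
    have := key _ _ 1 (by rw [mul_one]; exact hf.edge l p z z' a h)
    rwa [mul_one] at this
  have h1 := testFam.le_d hmem u v
  rw [← mul_sub, abs_mul, abs_of_pos (inv_pos.2 hc), inv_mul_le_iff₀ hc] at h1
  exact h1

/-- Extension by zero of a function on one level. -/
noncomputable def onLevel (l : ℕ) (g : Lam Letter (sl l) × Pt → ℝ) (u : MM) : ℝ :=
  if h : u.l = l then g (h ▸ u.p, u.z) else 0

theorem onLevel_same (l : ℕ) (g : Lam Letter (sl l) × Pt → ℝ) (p : Lam Letter (sl l)) (z : Pt) :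
    onLevel l g ⟨l, p, z⟩ = g (p, z) := by
  simp [onLevel]

theorem onLevel_ne (l : ℕ) (g : Lam Letter (sl l) × Pt → ℝ) (u : MM) (h : u.l ≠ l) :
    onLevel l g u = 0 := by
  simp [onLevel, h]

/-- Criterion for the test inequalities of a function supported on one level. -/
theorem Lp_onLevel (l : ℕ) (g : Lam Letter (sl l) × Pt → ℝ) {c : ℝ} (hc : 0 ≤ c)
    (hsup : ∀ w, |g w| ≤ c * sl l)
    (hedge : ∀ (p : Lam Letter (sl l)) (z z' : Pt) (a : Letter), actPt a z = some z' →
      |g (p, z) - g (p * letterPerm (sl l + 1) a, z')| ≤ c)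
    (hhub : ∀ (p : Lam Letter (sl l)) (z z' : Pt), |g (p, z) - g (p, z')| ≤ c * ((l : ℝ) + 1)) :
    Lp c (onLevel l g) := by
  refine ⟨fun k p z z' a h => ?_, fun k p z z' => ?_, fun u v => ?_⟩
  · by_cases hk : k = l
    · subst hk
      rw [onLevel_same, onLevel_same]
      exact hedge p z z' a h
    · rw [onLevel_ne l g _ hk, onLevel_ne l g _ hk]
      simpa using hc
  · by_cases hk : k = l
    · subst hk
      rw [onLevel_same, onLevel_same]
      exact hhub p z z'
    · rw [onLevel_ne l g _ hk, onLevel_ne l g _ hk]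
      simp only [sub_self, abs_zero]
      positivity
  · have habs : ∀ u : MM, |onLevel l g u| ≤ c * sl u.l := by
      rintro ⟨k, p, z⟩
      by_cases hk : k = l
      · subst hk
        rw [onLevel_same]
        exact hsup (p, z)
      · rw [onLevel_ne l g _ hk]
        simp only [abs_zero]
        positivity
    calc |onLevel l g u - onLevel l g v| ≤ |onLevel l g u| + |onLevel l g v| := abs_sub _ _
      _ ≤ c * sl u.l + c * sl v.l := add_le_add (habs u) (habs v)
      _ = c * ((sl u.l : ℝ) + sl v.l) := by ring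

/-- The element of `Lip0` defined by a function on one level (not the level of `o`). -/
noncomputable def mkLip (l : ℕ) (o : MM) (ho : o.l ≠ l) (g : Lam Letter (sl l) × Pt → ℝ) (c : ℝ)
    (hc : 0 < c) (h : Lp c (onLevel l g)) : Lip0 MM o :=
  ⟨onLevel l g, onLevel_ne l g o ho, c, fun u v => h.lipschitz hc u v⟩

theorem mkLip_apply (l : ℕ) (o : MM) (ho : o.l ≠ l) (g : Lam Letter (sl l) × Pt → ℝ) (c : ℝ)
    (hc : 0 < c) (h : Lp c (onLevel l g)) (u : MM) :
    mkLip l o ho g c hc h u = onLevel l g u := rfl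

theorem mkLip_norm (l : ℕ) (o : MM) (ho : o.l ≠ l) (g : Lam Letter (sl l) × Pt → ℝ) (c : ℝ)
    (hc : 0 < c) (h : Lp c (onLevel l g)) : ‖mkLip l o ho g c hc h‖ ≤ c :=
  Lip0.norm_le _ hc.le (fun u v => h.lipschitz hc u v)

end P090H22
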