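import Vale.Agent.Lib.P090H22.Core

/-!
# P090: a finite group in which short reduced words are distinct
-/

namespace P090H22

variable (A : Type) [DecidableEq A] [Fintype A]

/-- Reduced words of length at most `N`. -/
def Red (N : ℕ) : Type := {w : List A // w.IsChain (· ≠ ·) ∧ w.length ≤ N}

noncomputable instance (N : ℕ) : Fintype (Red A N) := by
  have : Finite (Red A N) :=
    Set.Finite.subset (List.finite_length_le A N) (fun w hw => hw.2)
  exact Fintype.ofFinite _

instance (N : ℕ) : DecidableEq (Red A N) := by
  unfold Red; infer_instance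

variable {A}

/-- The empty word. -/
def Red.nil (N : ℕ) : Red A N := ⟨[], by simp, by simp⟩

omit [Fintype A] in
theorem lmul_cons (a b : A) (t : List A) :
    lmul a (b :: t) = if b = a then t else a :: b :: t := rfl

omit [Fintype A] in
theorem lmul_isChain_aux (a : A) (w : List A) (hw : w.IsChain (· ≠ ·)) :
    (lmul a w).IsChain (· ≠ ·) := by
  cases w with
  | nil => simp [lmul]
  | cons b t =>
    rw [lmul_cons]
    split_ifs with h
    · cases t with
      | nil => simp
      | cons c t => rw [List.isChain_cons_cons] at hw; exact hw.2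
    · rw [List.isChain_cons_cons]
      exact ⟨fun h' => h h'.symm, hw⟩

omit [Fintype A] in
theorem lmul_lmul_aux (a : A) (w : List A) (hw : w.IsChain (· ≠ ·)) : lmul a (lmul a w) = w := by
  cases w with
  | nil => simp [lmul]
  | cons b t =>
    by_cases h : b = a
    · subst h
      have h1 : lmul b (b :: t) = t := by simp [lmul]
      rw [h1]
      cases t with
      | nil => simp [lmul]
      | cons c t =>
        rw [List.isChain_cons_cons] at hw
        have h2 : ¬ c = b := fun h => hw.1 h.symm
        simp [lmul, h2]
    · have h1 : lmul a (b :: t) = a :: b :: t := by simp [lmul, h]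
      rw [h1]
      simp [lmul]

omit [Fintype A] in
theorem lmul_of_chain (a : A) (w : List A) (hw : (a :: w).IsChain (· ≠ ·)) :
    lmul a w = a :: w := by
  cases w with
  | nil => simp [lmul]
  | cons b t =>
    rw [List.isChain_cons_cons] at hw
    have h2 : ¬ b = a := fun h => hw.1 h.symm
    simp [lmul, h2]

/-- the map underlying `letterPerm` -/
def letterFun (N : ℕ) (a : A) (w : Red A N) : Red A N :=
  if h : (lmul a w.1).length ≤ N then ⟨lmul a w.1, lmul_isChain_aux a w.1 w.2.1, h⟩ else w

omit [Fintype A] in
theorem letterFun_pos (N : ℕ) (a : A) (w : Red A N) (h : (lmul a w.1).length ≤ N) :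
    letterFun N a w = ⟨lmul a w.1, lmul_isChain_aux a w.1 w.2.1, h⟩ := dif_pos h

omit [Fintype A] in
theorem letterFun_neg (N : ℕ) (a : A) (w : Red A N) (h : ¬ (lmul a w.1).length ≤ N) :
    letterFun N a w = w := dif_neg h

omit [Fintype A] in
theorem letterFun_letterFun (N : ℕ) (a : A) (w : Red A N) :
    letterFun N a (letterFun N a w) = w := by
  by_cases h : (lmul a w.1).length ≤ N
  · have h1 := letterFun_pos N a w h
    have h2 : (lmul a (letterFun N a w).1) = w.1 := by
      rw [h1]; exact lmul_lmul_aux a w.1 w.2.1
    have h3 : (lmul a (letterFun N a w).1).length ≤ N := by rw [h2]; exact w.2.2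
    rw [letterFun_pos N a _ h3]
    exact Subtype.ext h2
  · have h1 := letterFun_neg N a w h
    rw [h1, h1]

/-- The involution of `Red A N` given by a letter: `a :: w ↦ w`, `w ↦ a :: w` if `w` does not
start with `a` and has length `< N`, and `w ↦ w` otherwise. -/
noncomputable def letterPerm (N : ℕ) (a : A) : Equiv.Perm (Red A N) where
  toFun := letterFun N a
  invFun := letterFun N a
  left_inv := letterFun_letterFun N a
  right_inv := letterFun_letterFun N a

theorem letterPerm_apply (N : ℕ) (a : A) (w : Red A N) (h : (lmul a w.1).length ≤ N) :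
    (letterPerm N a w).1 = lmul a w.1 := by
  have h1 : letterPerm N a w = ⟨lmul a w.1, lmul_isChain_aux a w.1 w.2.1, h⟩ :=
    letterFun_pos N a w h
  rw [h1]

theorem letterPerm_mul_self (N : ℕ) (a : A) : letterPerm N a * letterPerm N a = 1 := by
  refine Equiv.ext fun w => ?_
  exact letterFun_letterFun N a w

/-- Evaluation of a word in the group `Equiv.Perm (Red A N)`. -/
noncomputable def ev (N : ℕ) (w : List A) : Equiv.Perm (Red A N) := (w.map (letterPerm N)).prod

@[simp] theorem ev_nil (N : ℕ) : ev N ([] : List A) = 1 := rfl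

theorem ev_cons (N : ℕ) (a : A) (w : List A) : ev N (a :: w) = letterPerm N a * ev N w := by
  unfold ev
  rw [List.map_cons, List.prod_cons]

theorem ev_append (N : ℕ) (w w' : List A) : ev N (w ++ w') = ev N w * ev N w' := by
  unfold ev
  rw [List.map_append, List.prod_append]

theorem ev_lmul (N : ℕ) (a : A) (w : List A) : ev N (lmul a w) = letterPerm N a * ev N w := by
  cases w with
  | nil => exact ev_cons N a []
  | cons b t =>
    rw [lmul_cons]
    split_ifs with h
    · subst h
      rw [ev_cons, ← mul_assoc, letterPerm_mul_self, one_mul]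
    · exact ev_cons N a (b :: t)

theorem lmul_isChain (a : A) (w : List A) (hw : w.IsChain (· ≠ ·)) :
    (lmul a w).IsChain (· ≠ ·) := lmul_isChain_aux a w hw

theorem lmul_lmul (a : A) (w : List A) (hw : w.IsChain (· ≠ ·)) : lmul a (lmul a w) = w :=
  lmul_lmul_aux a w hw

theorem lmul_length (a : A) (w : List A) :
    (lmul a w).length = w.length + 1 ∨ (lmul a w).length + 1 = w.length := by
  cases w with
  | nil => left; simp [lmul]
  | cons b t =>
    rw [lmul_cons]
    split_ifs with h
    · right; simp
    · left; simp

/-- Reduced words of length at most `N` are determined by their value (at `nil`). -/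
theorem ev_apply_nil (N : ℕ) (w : List A) (hw : w.IsChain (· ≠ ·)) (hl : w.length ≤ N) :
    (ev N w (Red.nil N)).1 = w := by
  induction w with
  | nil => rfl
  | cons a t ih =>
    have ht : t.IsChain (· ≠ ·) := by
      cases t with
      | nil => simp
      | cons c t => rw [List.isChain_cons_cons] at hw; exact hw.2
    rw [List.length_cons] at hl
    have h1 := ih ht (by omega)
    rw [ev_cons, Equiv.Perm.mul_apply]
    have h2 : lmul a (ev N t (Red.nil N)).1 = a :: t := by
      rw [h1]; exact lmul_of_chain a t hw
    rw [letterPerm_apply, h2]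
    rw [h2, List.length_cons]; exact hl

/-- `g` is the value of a reduced word of length at most `s`; then the word is `(g nil).1`. -/
def Good (N s : ℕ) (g : Equiv.Perm (Red A N)) : Prop :=
  (g (Red.nil N)).1.length ≤ s ∧ ev N (g (Red.nil N)).1 = g

/-- The word of a (good) group element. -/
def wd {N : ℕ} (g : Equiv.Perm (Red A N)) : List A := (g (Red.nil N)).1

theorem wd_isChain {N : ℕ} (g : Equiv.Perm (Red A N)) : (wd g).IsChain (· ≠ ·) :=
  (g (Red.nil N)).2.1

theorem good_iff (N s : ℕ) (hs : s ≤ N) (g : Equiv.Perm (Red A N)) :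
    Good N s g ↔ ∃ w : List A, w.IsChain (· ≠ ·) ∧ w.length ≤ s ∧ ev N w = g := by
  constructor
  · rintro ⟨h1, h2⟩
    exact ⟨wd g, wd_isChain g, h1, h2⟩
  · rintro ⟨w, h1, h2, rfl⟩
    have h3 := ev_apply_nil N w h1 (h2.trans hs)
    unfold Good
    rw [h3]
    exact ⟨h2, rfl⟩

theorem wd_ev (N : ℕ) (w : List A) (hw : w.IsChain (· ≠ ·)) (hl : w.length ≤ N) :
    wd (ev N w) = w := ev_apply_nil N w hw hl

/-- Right multiplication by a letter, on good elements (`s + 1 ≤ N`).  Either the word ends with
`b`, and `wd (g b)` is the word with the last letter removed, or `wd (g b) = wd g ++ [b]`. -/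
theorem good_mul_right (N s : ℕ) (hs : s + 1 ≤ N) (g : Equiv.Perm (Red A N)) (b : A)
    (hg : Good N s g) :
    (∃ w₀ : List A, wd g = w₀ ++ [b] ∧ Good N s (g * letterPerm N b) ∧
      wd (g * letterPerm N b) = w₀) ∨
    (wd (g * letterPerm N b) = wd g ++ [b] ∧
      (Good N s (g * letterPerm N b) ↔ (wd g).length + 1 ≤ s)) := by
  have hlen : (wd g).length ≤ s := hg.1
  have hev : ev N (wd g) = g := hg.2
  have hch := wd_isChain g
  have hb : ev N [b] = letterPerm N b := by
    rw [ev_cons, ev_nil, mul_one]
  by_cases h : ∃ w₀ : List A, wd g = w₀ ++ [b]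
  · left
    obtain ⟨w₀, hw₀⟩ := h
    have h1 : g * letterPerm N b = ev N w₀ := by
      rw [← hev, hw₀, ev_append, hb, mul_assoc, letterPerm_mul_self, mul_one]
    have h2 : w₀.IsChain (· ≠ ·) := by
      rw [hw₀] at hch
      exact (List.isChain_append.1 hch).1
    have h3 : w₀.length ≤ s := by
      rw [hw₀, List.length_append] at hlen
      omega
    refine ⟨w₀, hw₀, ?_, ?_⟩
    · rw [good_iff N s (by omega)]
      exact ⟨w₀, h2, h3, h1.symm⟩
    · rw [h1]; exact wd_ev N w₀ h2 (by omega)
  · right
    have h1 : g * letterPerm N b = ev N (wd g ++ [b]) := by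
      rw [ev_append, hb, hev]
    have h2 : (wd g ++ [b]).IsChain (· ≠ ·) := by
      rw [List.isChain_append]
      refine ⟨hch, by simp, ?_⟩
      intro x hx y hy
      simp only [List.head?_cons, Option.mem_def, Option.some.injEq] at hy
      subst hy
      intro hxy
      subst hxy
      apply h
      rw [Option.mem_def] at hx
      refine ⟨(wd g).dropLast, ?_⟩
      have hne : wd g ≠ [] := by
        intro hnil; rw [hnil] at hx; simp at hx
      have h4 := List.dropLast_append_getLast hne
      have h5 : (wd g).getLast hne = x := by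
        rw [List.getLast?_eq_some_getLast hne] at hx
        exact Option.some.inj hx
      rw [h5] at h4
      exact h4.symm
    have h3 : (wd g ++ [b]).length = (wd g).length + 1 := by simp
    have h4 : wd (g * letterPerm N b) = wd g ++ [b] := by
      rw [h1]; exact wd_ev N _ h2 (by omega)
    refine ⟨h4, ?_⟩
    constructor
    · intro h5
      have h6 : (wd (g * letterPerm N b)).length ≤ s := h5.1
      rw [h4, h3] at h6
      exact h6
    · intro h5
      rw [good_iff N s (by omega)]
      exact ⟨wd g ++ [b], h2, by omega, h1.symm⟩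

/-- Left multiplication by a letter on good elements. -/
theorem good_mul_left (N s : ℕ) (hs : s + 1 ≤ N) (g : Equiv.Perm (Red A N)) (a : A)
    (hg : Good N s g) :
    wd (letterPerm N a * g) = lmul a (wd g) ∧
      (Good N s (letterPerm N a * g) ↔ (lmul a (wd g)).length ≤ s) := by
  have hlen : (wd g).length ≤ s := hg.1
  have hev : ev N (wd g) = g := hg.2
  have hch := wd_isChain g
  have h1 : letterPerm N a * g = ev N (lmul a (wd g)) := by
    rw [ev_lmul, hev]
  have h2 : (lmul a (wd g)).IsChain (· ≠ ·) := lmul_isChain a _ hch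
  have h3 := lmul_length a (wd g)
  have h4 : wd (letterPerm N a * g) = lmul a (wd g) := by
    rw [h1]; exact wd_ev N _ h2 (by omega)
  refine ⟨h4, ?_⟩
  constructor
  · intro h5
    have h6 : (wd (letterPerm N a * g)).length ≤ s := h5.1
    rw [h4] at h6
    exact h6
  · intro h5
    rw [good_iff N s (by omega)]
    exact ⟨lmul a (wd g), h2, h5, h1.symm⟩

/-- Lengths of `lmul a w` and `lmul a (w ++ [b])` differ by at most one. -/
theorem lmul_append_length (a b : A) (w : List A) :
    (lmul a (w ++ [b])).length ≤ (lmul a w).length + 1 ∧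
      (lmul a w).length ≤ (lmul a (w ++ [b])).length + 1 := by
  cases w with
  | nil =>
    simp only [List.nil_append, lmul]
    split_ifs <;> simp
  | cons c t =>
    simp only [List.cons_append, lmul]
    split_ifs <;> simp <;> omega

end P090H22
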